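import Crest.Agent.R056.Defs
import Crest.Agent.R056.Fourier
import Crest.Prelude.Def_FinProb
import Mathlib
import Crest.Prelude.Def_HypergraphCube

-- ▼ part R056/Defs2
section

/-! Row 56: further shared definitions (proof of helper406). -/

set_option autoImplicit false

namespace Crest.Agent.R056

open Finset Crest.FinProb Crest.CombinatoricsR.HypergraphCube

section Cube

variable {ι : Type*} [Fintype ι] [DecidableEq ι]

/-- Expectation under independent coins, coin `i` of bias `ν i`. -/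
noncomputable def EW (ν : ι → ℝ) (F : (ι → Bool) → ℝ) : ℝ :=
  ∑ y : ι → Bool, (∏ i, if y i then ν i else 1 - ν i) * F y


/-- Coordinates in `J` from `y`, the others from `x`. -/
def mix (J : Finset ι) (x y : ι → Bool) : ι → Bool := fun i => if i ∈ J then y i else x i

/-- Rerandomize the coordinates in `J`. -/
noncomputable def EJ (p : ℝ) (J : Finset ι) (F : (ι → Bool) → ℝ) (x : ι → Bool) : ℝ :=
  Ex p (fun y => F (mix J x y))

/-- Biases seen from `x` when each coordinate is rerandomized with probability `δ`. -/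
noncomputable def nu (p δ : ℝ) (x : ι → Bool) (i : ι) : ℝ :=
  (1 - δ) * (if x i then 1 else 0) + δ * p

/-- Noise operator: rerandomize each coordinate with probability `δ`. -/
noncomputable def Tn (p δ : ℝ) (F : (ι → Bool) → ℝ) (x : ι → Bool) : ℝ := EW (nu p δ x) F

end Cube

variable {n r : ℕ}

/-- The slots touching the vertex set `A`. -/
def touch (r : ℕ) (A : Finset (Fin n)) : Finset (HyperedgeSlot n r) :=
  univ.filter (fun e => ¬ Disjoint e.1 A)

/-- Degree of the vertex `a` in the hypergraph `S`. -/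
def degS (S : Finset (HyperedgeSlot n r)) (a : Fin n) : ℕ := (S.filter (fun e => a ∈ e.1)).card

/-- `Λ`: mass (after noise) of the pairs `(a, S)` with `1 ≤ deg_a(S) ≤ s`. -/
noncomputable def Lam (p δ : ℝ) (f : (HyperedgeSlot n r → Bool) → Bool) (s : ℕ) : ℝ :=
  ∑ a : Fin n, ∑ S ∈ (univ : Finset (Finset (HyperedgeSlot n r))).filter
    (fun S => 1 ≤ degS S a ∧ degS S a ≤ s), (1 - δ) ^ (2 * S.card) * mass p f S

end Crest.Agent.R056
end

-- ▼ part R056/Bonami
section

/-! Row 56: p-biased Bonami lemma and level inequality. OWNER: helper425. -/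

set_option autoImplicit false

namespace Crest.Agent.R056

open Finset Crest.FinProb

variable {ι : Type*} [Fintype ι] [DecidableEq ι] {p : ℝ}

lemma chi_insert (p : ℝ) {e : ι} {S : Finset ι} (he : e ∉ S) (ω : ι → Bool) :
    chi p (insert e S) ω = phi p (ω e) * chi p S ω := by
  unfold chi
  rw [Finset.prod_insert he]

lemma chi_update (p : ℝ) {e : ι} {S : Finset ι} (he : e ∉ S) (ω : ι → Bool) (b : Bool) :
    chi p S (Function.update ω e b) = chi p S ω := by
  unfold chi
  refine Finset.prod_congr rfl fun i hi => ?_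
  have : i ≠ e := fun h => he (h ▸ hi)
  simp [this]

lemma one_phi_mean (p : ℝ) : p * phi p true + (1 - p) * phi p false = 0 := by
  unfold phi
  simp
  ring

lemma one_phi_sq (hp0 : 0 < p) (hp1 : p < 1) :
    p * phi p true ^ 2 + (1 - p) * phi p false ^ 2 = 1 := by
  have h1 : (0 : ℝ) < 1 - p := by linarith
  have hq : 0 < p * (1 - p) := mul_pos hp0 h1
  unfold phi
  simp only [div_pow, Real.sq_sqrt hq.le, if_true, Bool.false_eq_true, if_false]
  field_simp
  ring

lemma one_phi_four (hp0 : 0 < p) (hp1 : p < 1) :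
    p * phi p true ^ 4 + (1 - p) * phi p false ^ 4 ≤ 1 / (p * (1 - p)) := by
  have h1 : (0 : ℝ) < 1 - p := by linarith
  have hq : 0 < p * (1 - p) := mul_pos hp0 h1
  have h4 : Real.sqrt (p * (1 - p)) ^ 4 = (p * (1 - p)) ^ 2 := by
    rw [show (4 : ℕ) = 2 * 2 by norm_num, pow_mul, Real.sq_sqrt hq.le]
  unfold phi
  simp only [div_pow, h4, if_true, Bool.false_eq_true, if_false]
  have : p * ((1 - p) ^ 4 / (p * (1 - p)) ^ 2) + (1 - p) * ((-p) ^ 4 / (p * (1 - p)) ^ 2) =
      ((1 - p) ^ 3 + p ^ 3) / (p * (1 - p)) := by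
    field_simp
  rw [this]
  apply div_le_div_of_nonneg_right _ hq.le
  nlinarith [hq]

lemma inv_pq_ge (hp0 : 0 < p) (hp1 : p < 1) : 4 ≤ 1 / (p * (1 - p)) := by
  have h1 : (0 : ℝ) < 1 - p := by linarith
  have hq : 0 < p * (1 - p) := mul_pos hp0 h1
  rw [le_div_iff₀ hq]
  nlinarith [sq_nonneg (p - 1 / 2)]

/-- weighted Bonami inequality: `E g⁴ ≤ (∑ κ^{|S|} c_S²)²` for `κ ≥ 4`, `κ² ≥ 3/(p(1-p))`. -/
theorem bonami_weighted (hp0 : 0 < p) (hp1 : p < 1) (κ : ℝ) (hκ4 : 4 ≤ κ)
    (hκ : 3 / (p * (1 - p)) ≤ κ ^ 2) (W : Finset ι) : ∀ (c : Finset ι → ℝ),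
    Ex p (fun ω => (∑ S ∈ W.powerset, c S * chi p S ω) ^ 4)
      ≤ (∑ S ∈ W.powerset, κ ^ S.card * c S ^ 2) ^ 2 := by
  induction W using Finset.induction_on with
  | empty =>
    intro c
    simp only [powerset_empty, sum_singleton, chi_empty, card_empty, pow_zero, mul_one, one_mul]
    have h := Ex_const_mul (p := p) (c ∅ ^ 4) (fun _ : ι → Bool => (1 : ℝ))
    simp only [mul_one] at h
    rw [h, Ex_one]
    apply le_of_eq; ring
  | insert e W he IH =>
    intro c
    set g0 : (ι → Bool) → ℝ := fun ω => ∑ S ∈ W.powerset, c S * chi p S ω with hg0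
    set g1 : (ι → Bool) → ℝ := fun ω => ∑ S ∈ W.powerset, c (insert e S) * chi p S ω with hg1
    set B0 : ℝ := ∑ S ∈ W.powerset, κ ^ S.card * c S ^ 2 with hB0
    set B1 : ℝ := ∑ S ∈ W.powerset, κ ^ S.card * c (insert e S) ^ 2 with hB1
    have hκ0 : 0 ≤ κ := by linarith
    have hB0n : 0 ≤ B0 := Finset.sum_nonneg fun S _ => mul_nonneg (pow_nonneg hκ0 _) (sq_nonneg _)
    have hB1n : 0 ≤ B1 := Finset.sum_nonneg fun S _ => mul_nonneg (pow_nonneg hκ0 _) (sq_nonneg _)
    have hmem : ∀ S ∈ W.powerset, e ∉ S := fun S hS h => he (Finset.mem_powerset.mp hS h)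
    have hsplit : ∀ ω, (∑ S ∈ (insert e W).powerset, c S * chi p S ω) =
        g0 ω + phi p (ω e) * g1 ω := by
      intro ω
      rw [Finset.sum_powerset_insert he, hg0, hg1]
      congr 1
      rw [Finset.mul_sum]
      refine Finset.sum_congr rfl fun S hS => ?_
      rw [chi_insert p (hmem S hS)]
      ring
    have hsum : (∑ S ∈ (insert e W).powerset, κ ^ S.card * c S ^ 2) = B0 + κ * B1 := by
      rw [Finset.sum_powerset_insert he, hB0, hB1]
      congr 1
      rw [Finset.mul_sum]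
      refine Finset.sum_congr rfl fun S hS => ?_
      rw [Finset.card_insert_of_notMem (hmem S hS), pow_succ]
      ring
    have hu0 : ∀ ω b, g0 (Function.update ω e b) = g0 ω := by
      intro ω b
      refine Finset.sum_congr rfl fun S hS => ?_
      rw [chi_update p (hmem S hS)]
    have hu1 : ∀ ω b, g1 (Function.update ω e b) = g1 ω := by
      intro ω b
      refine Finset.sum_congr rfl fun S hS => ?_
      rw [chi_update p (hmem S hS)]
    have IH0 : Ex p (fun ω => g0 ω ^ 4) ≤ B0 ^ 2 := IH c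
    have IH1 : Ex p (fun ω => g1 ω ^ 4) ≤ B1 ^ 2 := IH (fun S => c (insert e S))
    have hnn : ∀ g : (ι → Bool) → ℝ, 0 ≤ Ex p (fun ω => g ω ^ 4) := fun g =>
      Ex_nonneg hp0.le hp1.le fun ω => by positivity
    have hCS : Ex p (fun ω => g0 ω ^ 2 * g1 ω ^ 2) ≤ B0 * B1 := by
      have h1 := Ex_mul_sq_le hp0.le hp1.le (fun ω => g0 ω ^ 2) (fun ω => g1 ω ^ 2)
      have e4 : ∀ g : (ι → Bool) → ℝ, (fun ω => (g ω ^ 2) ^ 2) = (fun ω => g ω ^ 4) := by
        intro g; funext ω; ring
      simp only [e4] at h1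
      have h2 : Ex p (fun ω => g0 ω ^ 2 * g1 ω ^ 2) ^ 2 ≤ (B0 * B1) ^ 2 := by
        calc _ ≤ Ex p (fun ω => g0 ω ^ 4) * Ex p (fun ω => g1 ω ^ 4) := h1
          _ ≤ B0 ^ 2 * B1 ^ 2 := mul_le_mul IH0 IH1 (hnn g1) (sq_nonneg _)
          _ = (B0 * B1) ^ 2 := by ring
      exact abs_le_of_sq_le_sq' h2 (mul_nonneg hB0n hB1n) |>.2
    have hpt : ∀ ω, (g0 ω + phi p (ω e) * g1 ω) ^ 4 ≤
        g0 ω ^ 4 + (4 * (phi p (ω e) * (g0 ω ^ 3 * g1 ω)) +
          (8 * (phi p (ω e) ^ 2 * (g0 ω ^ 2 * g1 ω ^ 2)) +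
            3 * (phi p (ω e) ^ 4 * g1 ω ^ 4))) := by
      intro ω
      nlinarith [sq_nonneg (phi p (ω e) * g0 ω * g1 ω - phi p (ω e) ^ 2 * g1 ω ^ 2)]
    have hm1 : Ex p (fun ω => phi p (ω e) * (g0 ω ^ 3 * g1 ω)) = 0 := by
      rw [Ex_coord_mul e (fun b => phi p b) (fun ω => g0 ω ^ 3 * g1 ω)
        (fun ω b => by simp only [hu0, hu1]), one_phi_mean, zero_mul]
    have hm2 : Ex p (fun ω => phi p (ω e) ^ 2 * (g0 ω ^ 2 * g1 ω ^ 2)) =
        Ex p (fun ω => g0 ω ^ 2 * g1 ω ^ 2) := by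
      rw [Ex_coord_mul e (fun b => phi p b ^ 2) (fun ω => g0 ω ^ 2 * g1 ω ^ 2)
        (fun ω b => by simp only [hu0, hu1]), one_phi_sq hp0 hp1, one_mul]
    have hm4 : Ex p (fun ω => phi p (ω e) ^ 4 * g1 ω ^ 4) ≤
        1 / (p * (1 - p)) * Ex p (fun ω => g1 ω ^ 4) := by
      rw [Ex_coord_mul e (fun b => phi p b ^ 4) (fun ω => g1 ω ^ 4)
        (fun ω b => by simp only [hu1])]
      exact mul_le_mul_of_nonneg_right (one_phi_four hp0 hp1) (hnn g1)
    have hu : 0 ≤ 1 / (p * (1 - p)) := by linarith [inv_pq_ge hp0 hp1]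
    have hκ' : 3 * (1 / (p * (1 - p))) ≤ κ ^ 2 := by
      have : 3 * (1 / (p * (1 - p))) = 3 / (p * (1 - p)) := by ring
      rw [this]; exact hκ
    calc Ex p (fun ω => (∑ S ∈ (insert e W).powerset, c S * chi p S ω) ^ 4)
        = Ex p (fun ω => (g0 ω + phi p (ω e) * g1 ω) ^ 4) := by simp only [hsplit]
      _ ≤ Ex p (fun ω => g0 ω ^ 4 + (4 * (phi p (ω e) * (g0 ω ^ 3 * g1 ω)) +
          (8 * (phi p (ω e) ^ 2 * (g0 ω ^ 2 * g1 ω ^ 2)) +
            3 * (phi p (ω e) ^ 4 * g1 ω ^ 4)))) := Ex_mono hp0.le hp1.le hpt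
      _ = Ex p (fun ω => g0 ω ^ 4) + (4 * Ex p (fun ω => phi p (ω e) * (g0 ω ^ 3 * g1 ω)) +
          (8 * Ex p (fun ω => phi p (ω e) ^ 2 * (g0 ω ^ 2 * g1 ω ^ 2)) +
            3 * Ex p (fun ω => phi p (ω e) ^ 4 * g1 ω ^ 4))) := by
          rw [Ex_add, Ex_add, Ex_add, Ex_const_mul, Ex_const_mul, Ex_const_mul]
      _ ≤ B0 ^ 2 + (4 * 0 + (8 * (B0 * B1) + 3 * (1 / (p * (1 - p)) * B1 ^ 2))) := by
          rw [hm1, hm2]
          have := mul_le_mul_of_nonneg_left IH1 hu
          linarith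
      _ ≤ (B0 + κ * B1) ^ 2 := by
          nlinarith [mul_nonneg hB0n hB1n, sq_nonneg B1, mul_le_mul_of_nonneg_right hκ' (sq_nonneg B1),
            mul_nonneg (sub_nonneg.mpr hκ4) (mul_nonneg hB0n hB1n)]
      _ = _ := by rw [hsum]

/-- (2,4)-Bonami lemma with constant `b = 4/(p(1-p)) ≥ 16`. -/
theorem bonami (hp0 : 0 < p) (hp1 : p < 1) (d : ℕ) (a : Finset ι → ℝ) :
    Ex p (fun ω => (∑ S ∈ (univ : Finset (Finset ι)).filter (fun S => S.card ≤ d),
        a S * chi p S ω) ^ 4)
      ≤ (4 / (p * (1 - p))) ^ d *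
        (∑ S ∈ (univ : Finset (Finset ι)).filter (fun S => S.card ≤ d), a S ^ 2) ^ 2 := by
  have h1 : (0 : ℝ) < 1 - p := by linarith
  have hq : 0 < p * (1 - p) := mul_pos hp0 h1
  have hu := inv_pq_ge hp0 hp1
  have hK : (16 : ℝ) ≤ 4 / (p * (1 - p)) := by
    have : 4 / (p * (1 - p)) = 4 * (1 / (p * (1 - p))) := by ring
    linarith
  set κ : ℝ := Real.sqrt (4 / (p * (1 - p))) with hκdef
  have hκsq : κ ^ 2 = 4 / (p * (1 - p)) := Real.sq_sqrt (by linarith)
  have hκ4 : 4 ≤ κ := by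
    rw [hκdef]
    apply Real.le_sqrt_of_sq_le
    linarith
  have hκ3 : 3 / (p * (1 - p)) ≤ κ ^ 2 := by
    rw [hκsq]
    exact div_le_div_of_nonneg_right (by norm_num) hq.le
  have hκ1 : 1 ≤ κ := by linarith
  have h := bonami_weighted hp0 hp1 κ hκ4 hκ3 (univ : Finset ι)
    (fun S => if S.card ≤ d then a S else 0)
  simp only [Finset.powerset_univ] at h
  have e1 : ∀ ω : ι → Bool, (∑ S : Finset ι, (if S.card ≤ d then a S else 0) * chi p S ω) =
      ∑ S ∈ (univ : Finset (Finset ι)).filter (fun S => S.card ≤ d), a S * chi p S ω := by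
    intro ω
    rw [Finset.sum_filter]
    refine Finset.sum_congr rfl fun S _ => ?_
    split_ifs <;> simp
  simp only [e1] at h
  refine h.trans ?_
  have e2 : (∑ S : Finset ι, κ ^ S.card * (if S.card ≤ d then a S else 0) ^ 2) ≤
      κ ^ d * ∑ S ∈ (univ : Finset (Finset ι)).filter (fun S => S.card ≤ d), a S ^ 2 := by
    rw [Finset.sum_filter, Finset.mul_sum]
    refine Finset.sum_le_sum fun S _ => ?_
    split_ifs with hS
    · exact mul_le_mul_of_nonneg_right (pow_le_pow_right₀ hκ1 hS) (sq_nonneg _)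
    · simp
  have e3 : 0 ≤ ∑ S : Finset ι, κ ^ S.card * (if S.card ≤ d then a S else 0) ^ 2 :=
    Finset.sum_nonneg fun S _ => mul_nonneg (pow_nonneg (by linarith) _) (sq_nonneg _)
  calc _ ≤ (κ ^ d * ∑ S ∈ (univ : Finset (Finset ι)).filter (fun S => S.card ≤ d), a S ^ 2) ^ 2 :=
        pow_le_pow_left₀ e3 e2 2
    _ = _ := by rw [mul_pow, ← hκsq, ← pow_mul, ← pow_mul, mul_comm d 2]



/-- Level inequality with an `L¹`/`L²` right hand side, squared form:
`(mass of h on levels ≤ d)² ≤ b^d (E|h|)² E h²`. -/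
theorem level_ineq_abs_sq (hp0 : 0 < p) (hp1 : p < 1) (d : ℕ) (h : (ι → Bool) → ℝ) :
    lowMass p d h ^ 2 ≤ (4 / (p * (1 - p))) ^ d * Ex p (fun ω => |h ω|) ^ 2 *
      Ex p (fun ω => h ω ^ 2) := by
  have h1 : (0 : ℝ) < 1 - p := by linarith
  have hq : 0 < p * (1 - p) := mul_pos hp0 h1
  set b : ℝ := (4 / (p * (1 - p))) ^ d with hb
  have hb0 : 0 ≤ b := by positivity
  set X : ℝ := lowMass p d h with hX
  set q : (ι → Bool) → ℝ := fun ω =>
    ∑ S ∈ (univ : Finset (Finset ι)).filter (fun S => S.card ≤ d), hat p h S * chi p S ω with hqdef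
  have hXgq : X = Ex p (fun ω => h ω * q ω) := by
    have : ∀ ω, h ω * q ω = ∑ S ∈ (univ : Finset (Finset ι)).filter (fun S => S.card ≤ d),
        hat p h S * (h ω * chi p S ω) := by
      intro ω
      rw [hqdef, Finset.mul_sum]
      refine Finset.sum_congr rfl fun S _ => by ring
    simp only [this]
    rw [Ex_sum, hX]
    unfold lowMass
    refine Finset.sum_congr rfl fun S _ => ?_
    rw [Ex_const_mul]
    unfold hat
    ring
  have hq4 : Ex p (fun ω => q ω ^ 4) ≤ b * X ^ 2 := bonami hp0 hp1 d (hat p h)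
  have hsq : ∀ ω, Real.sqrt |h ω| ^ 2 = |h ω| := fun ω => Real.sq_sqrt (abs_nonneg _)
  -- `X ≤ E |h| |q|`
  have hA0 : 0 ≤ Ex p (fun ω => |h ω|) := Ex_nonneg hp0.le hp1.le fun ω => abs_nonneg _
  have hG0 : 0 ≤ Ex p (fun ω => h ω ^ 2) := Ex_nonneg hp0.le hp1.le fun ω => sq_nonneg _
  set A := Ex p (fun ω => |h ω|) with hA
  set G := Ex p (fun ω => h ω ^ 2) with hG
  set Y := Ex p (fun ω => |h ω| * q ω ^ 2) with hY
  have hY0 : 0 ≤ Y := Ex_nonneg hp0.le hp1.le fun ω => mul_nonneg (abs_nonneg _) (sq_nonneg _)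
  have hX0 : 0 ≤ X := lowMass_nonneg d h
  have hle : X ≤ Ex p (fun ω => Real.sqrt |h ω| * (Real.sqrt |h ω| * |q ω|)) := by
    rw [hXgq]
    refine Ex_mono hp0.le hp1.le fun ω => ?_
    have : Real.sqrt |h ω| * (Real.sqrt |h ω| * |q ω|) = |h ω| * |q ω| := by
      rw [← mul_assoc, ← sq, hsq]
    rw [this, ← abs_mul]
    exact le_abs_self _
  have hCS1 : X ^ 2 ≤ A * Y := by
    have h2 := Ex_mul_sq_le hp0.le hp1.le (fun ω => Real.sqrt |h ω|)
      (fun ω => Real.sqrt |h ω| * |q ω|)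
    have e1 : (fun ω => Real.sqrt |h ω| ^ 2) = (fun ω => |h ω|) := by
      funext ω; exact hsq ω
    have e2 : (fun ω => (Real.sqrt |h ω| * |q ω|) ^ 2) = (fun ω => |h ω| * q ω ^ 2) := by
      funext ω; rw [mul_pow, hsq, sq_abs]
    rw [e1, e2] at h2
    exact (pow_le_pow_left₀ hX0 hle 2).trans h2
  have hCS2 : Y ^ 2 ≤ G * (b * X ^ 2) := by
    have h2 := Ex_mul_sq_le hp0.le hp1.le (fun ω => |h ω|) (fun ω => q ω ^ 2)
    have e1 : (fun ω => |h ω| ^ 2) = (fun ω => h ω ^ 2) := by funext ω; exact sq_abs _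
    have e2 : (fun ω => (q ω ^ 2) ^ 2) = (fun ω => q ω ^ 4) := by funext ω; ring
    rw [e1, e2] at h2
    exact h2.trans (mul_le_mul_of_nonneg_left hq4 hG0)
  have h4 : X ^ 2 * X ^ 2 ≤ (b * A ^ 2 * G) * X ^ 2 := by
    have hh : (X ^ 2) ^ 2 ≤ (A * Y) ^ 2 := pow_le_pow_left₀ (sq_nonneg X) hCS1 2
    have hh2 : A ^ 2 * Y ^ 2 ≤ A ^ 2 * (G * (b * X ^ 2)) :=
      mul_le_mul_of_nonneg_left hCS2 (sq_nonneg A)
    nlinarith [hh, hh2]
  rcases eq_or_lt_of_le (sq_nonneg X) with h0 | hpos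
  · rw [← h0]; positivity
  · exact le_of_mul_le_mul_right h4 hpos

/-- Level inequality with an `L¹`/`L²` right hand side. -/
theorem level_ineq_abs (hp0 : 0 < p) (hp1 : p < 1) (d : ℕ) (h : (ι → Bool) → ℝ) :
    lowMass p d h ≤ Real.sqrt (4 / (p * (1 - p))) ^ d * Ex p (fun ω => |h ω|) *
      Real.sqrt (Ex p (fun ω => h ω ^ 2)) := by
  have h1 : (0 : ℝ) < 1 - p := by linarith
  have hq : 0 < p * (1 - p) := mul_pos hp0 h1
  have hA0 : 0 ≤ Ex p (fun ω => |h ω|) := Ex_nonneg hp0.le hp1.le fun ω => abs_nonneg _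
  have hG0 : 0 ≤ Ex p (fun ω => h ω ^ 2) := Ex_nonneg hp0.le hp1.le fun ω => sq_nonneg _
  have hb0 : (0 : ℝ) ≤ 4 / (p * (1 - p)) := by positivity
  have hR : 0 ≤ Real.sqrt (4 / (p * (1 - p))) ^ d * Ex p (fun ω => |h ω|) *
      Real.sqrt (Ex p (fun ω => h ω ^ 2)) := by positivity
  have h2 : lowMass p d h ^ 2 ≤ (Real.sqrt (4 / (p * (1 - p))) ^ d * Ex p (fun ω => |h ω|) *
      Real.sqrt (Ex p (fun ω => h ω ^ 2))) ^ 2 := by
    refine (level_ineq_abs_sq hp0 hp1 d h).trans (le_of_eq ?_)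
    rw [mul_pow, mul_pow, Real.sq_sqrt hG0, ← pow_mul, mul_comm d 2, pow_mul, Real.sq_sqrt hb0]
  exact abs_le_of_sq_le_sq' h2 hR |>.2

end Crest.Agent.R056
end

-- ▼ part R056V/Cube
section

/-!
Fourier analysis on a finite product of biased coins, by explicit finite sums.
-/

set_option autoImplicit false
set_option linter.unusedSectionVars false
set_option linter.unusedVariables false

namespace Crest.Agent.R056V

open Finset Crest.FinProb

variable {E : Type*} [Fintype E] [DecidableEq E]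

/-- Expectation under independent coins of bias `p`. -/
noncomputable def Ex (p : ℝ) (F : (E → Bool) → ℝ) : ℝ := ∑ x, bernoulliWeight p x * F x

theorem bw_nonneg {p : ℝ} (h0 : 0 ≤ p) (h1 : p ≤ 1) (x : E → Bool) : 0 ≤ bernoulliWeight p x := by
  unfold bernoulliWeight
  refine Finset.prod_nonneg fun i _ => ?_
  split_ifs <;> linarith


/-- Expectation of a product of functions of single coordinates. -/
theorem Ex_prod (p : ℝ) (g : E → Bool → ℝ) :
    Ex p (fun x => ∏ e, g e (x e)) = ∏ e, (p * g e true + (1 - p) * g e false) := by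
  unfold Ex bernoulliWeight
  have h1 : ∀ x : E → Bool, (∏ i, if x i = true then p else 1 - p) * ∏ e, g e (x e)
      = ∏ e, ((if x e = true then p else 1 - p) * g e (x e)) := by
    intro x
    rw [Finset.prod_mul_distrib]
  simp_rw [h1]
  have h2 := Finset.prod_univ_sum (fun _ : E => (Finset.univ : Finset Bool))
    (fun e b => (if b = true then p else 1 - p) * g e b)
  rw [Fintype.piFinset_univ] at h2
  rw [← h2]
  refine Finset.prod_congr rfl fun e _ => ?_
  simp

theorem Ex_const (p c : ℝ) : Ex (E := E) p (fun _ => c) = c := by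
  have h := Ex_prod (E := E) p (fun _ _ => 1)
  have h1 : Ex (E := E) p (fun _ => (1 : ℝ)) = 1 := by
    simpa using h
  have : Ex (E := E) p (fun _ => c) = c * Ex (E := E) p (fun _ => (1 : ℝ)) := by
    unfold Ex
    rw [Finset.mul_sum]
    refine Finset.sum_congr rfl fun x _ => ?_
    ring
  rw [this, h1, mul_one]


theorem Ex_sub (p : ℝ) (F G : (E → Bool) → ℝ) : Ex p (fun x => F x - G x) = Ex p F - Ex p G := by
  unfold Ex
  rw [← Finset.sum_sub_distrib]
  refine Finset.sum_congr rfl fun x _ => ?_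
  ring

theorem Ex_mul_left (p c : ℝ) (F : (E → Bool) → ℝ) : Ex p (fun x => c * F x) = c * Ex p F := by
  unfold Ex
  rw [Finset.mul_sum]
  refine Finset.sum_congr rfl fun x _ => ?_
  ring


theorem Ex_sum {ι : Type*} (p : ℝ) (s : Finset ι) (F : ι → (E → Bool) → ℝ) :
    Ex p (fun x => ∑ i ∈ s, F i x) = ∑ i ∈ s, Ex p (F i) := by
  unfold Ex
  simp_rw [Finset.mul_sum]
  rw [Finset.sum_comm]

theorem Ex_congr (p : ℝ) {F G : (E → Bool) → ℝ} (h : ∀ x, F x = G x) : Ex p F = Ex p G := by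
  unfold Ex
  exact Finset.sum_congr rfl fun x _ => by rw [h x]

theorem Ex_mono {p : ℝ} (h0 : 0 ≤ p) (h1 : p ≤ 1) {F G : (E → Bool) → ℝ} (h : ∀ x, F x ≤ G x) :
    Ex p F ≤ Ex p G := by
  unfold Ex
  exact Finset.sum_le_sum fun x _ => mul_le_mul_of_nonneg_left (h x) (bw_nonneg h0 h1 x)

theorem Ex_nonneg {p : ℝ} (h0 : 0 ≤ p) (h1 : p ≤ 1) {F : (E → Bool) → ℝ} (h : ∀ x, 0 ≤ F x) :
    0 ≤ Ex p F := by
  unfold Ex
  exact Finset.sum_nonneg fun x _ => mul_nonneg (bw_nonneg h0 h1 x) (h x)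

theorem abs_Ex_le {p : ℝ} (h0 : 0 ≤ p) (h1 : p ≤ 1) (F : (E → Bool) → ℝ) :
    |Ex p F| ≤ Ex p (fun x => |F x|) := by
  unfold Ex
  refine (Finset.abs_sum_le_sum_abs _ _).trans (le_of_eq ?_)
  refine Finset.sum_congr rfl fun x _ => ?_
  rw [abs_mul, abs_of_nonneg (bw_nonneg h0 h1 x)]


/-! ### Resampling a set of coordinates -/

/-- Take the coordinates in `D` from `z`, the others from `x`. -/
def merge (D : Finset E) (z x : E → Bool) : E → Bool := fun e => if e ∈ D then z e else x e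

omit [Fintype E] in
theorem merge_mem {D : Finset E} {z x : E → Bool} {e : E} (h : e ∈ D) : merge D z x e = z e := by
  simp [merge, h]

omit [Fintype E] in
theorem merge_not_mem {D : Finset E} {z x : E → Bool} {e : E} (h : e ∉ D) :
    merge D z x e = x e := by
  simp [merge, h]

theorem bw_merge (p : ℝ) (D : Finset E) (z x : E → Bool) :
    bernoulliWeight p (merge D z x) * bernoulliWeight p (merge D x z)
      = bernoulliWeight p x * bernoulliWeight p z := by
  unfold bernoulliWeight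
  rw [← Finset.prod_mul_distrib, ← Finset.prod_mul_distrib]
  refine Finset.prod_congr rfl fun e _ => ?_
  by_cases h : e ∈ D
  · simp only [merge, h, if_true]
    ring
  · simp only [merge, h, if_false]

/-- Swapping the coordinates in `D` between two independent copies preserves the joint law. -/
theorem Ex_Ex_merge (p : ℝ) (D : Finset E) (G : (E → Bool) → (E → Bool) → ℝ) :
    Ex p (fun x => Ex p (fun z => G (merge D z x) (merge D x z)))
      = Ex p (fun x => Ex p (fun z => G x z)) := by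
  unfold Ex
  simp_rw [Finset.mul_sum]
  rw [← Finset.sum_product', ← Finset.sum_product']
  refine Finset.sum_nbij' (fun q => (merge D q.2 q.1, merge D q.1 q.2))
    (fun q => (merge D q.2 q.1, merge D q.1 q.2)) ?_ ?_ ?_ ?_ ?_
  · intro q _; simp
  · intro q _; simp
  · rintro ⟨x, z⟩ _
    ext e <;> by_cases h : e ∈ D <;> simp [merge, h]
  · rintro ⟨x, z⟩ _
    ext e <;> by_cases h : e ∈ D <;> simp [merge, h]
  · rintro ⟨x, z⟩ _
    simp only
    rw [← mul_assoc, ← mul_assoc, bw_merge]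

/-- Average over the coordinates in `D`. -/
noncomputable def av (p : ℝ) (D : Finset E) (F : (E → Bool) → ℝ) (x : E → Bool) : ℝ :=
  Ex p (fun z => F (merge D z x))

theorem Ex_av (p : ℝ) (D : Finset E) (F : (E → Bool) → ℝ) : Ex p (av p D F) = Ex p F := by
  have h := Ex_Ex_merge (E := E) p D (fun a _ => F a)
  have h2 : Ex (E := E) p (fun x => Ex p (fun _ : E → Bool => F x)) = Ex p F := by
    refine Ex_congr p fun x => ?_
    exact Ex_const p (F x)
  rw [h2] at h
  exact h

omit [Fintype E] in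
theorem merge_merge_same (D : Finset E) (z y x : E → Bool) :
    merge D z (merge D y x) = merge D z x := by
  funext e
  by_cases h : e ∈ D <;> simp [merge, h]


/-- `F` does not depend on the coordinates in `D`. -/
def Indep (D : Finset E) (F : (E → Bool) → ℝ) : Prop := ∀ z x, F (merge D z x) = F x

omit [Fintype E] in
theorem Indep.mono {D D' : Finset E} {F : (E → Bool) → ℝ} (h : Indep D' F) (hD : D ⊆ D') :
    Indep D F := by
  intro z x
  have h1 := h (merge D z x) x
  have h2 := h x (merge D z x)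
  have : merge D' x (merge D z x) = x := by
    funext e
    by_cases hD' : e ∈ D'
    · simp [merge, hD']
    · have : e ∉ D := fun hh => hD' (hD hh)
      simp [merge, hD', this]
  rw [this] at h2
  exact h2.symm

omit [Fintype E] in
theorem Indep.congr {D : Finset E} {F : (E → Bool) → ℝ} (h : Indep D F) {x y : E → Bool}
    (hxy : ∀ e, e ∉ D → x e = y e) : F x = F y := by
  have h1 := h y x
  have : merge D y x = y := by
    funext e
    by_cases hD' : e ∈ D
    · simp [merge, hD']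
    · simp [merge, hD', hxy e hD']
  rw [this] at h1
  exact h1.symm

theorem indep_av (p : ℝ) (D : Finset E) (F : (E → Bool) → ℝ) : Indep D (av p D F) := by
  intro z x
  unfold av
  simp_rw [merge_merge_same]

omit [Fintype E] in
theorem Indep.mul {D : Finset E} {F G : (E → Bool) → ℝ} (hF : Indep D F) (hG : Indep D G) :
    Indep D (fun x => F x * G x) := by
  intro z x
  simp only [hF z x, hG z x]

omit [Fintype E] in
theorem Indep.comp {D : Finset E} {F : (E → Bool) → ℝ} (hF : Indep D F) (φ : ℝ → ℝ) :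
    Indep D (fun x => φ (F x)) := by
  intro z x
  simp only [hF z x]

theorem av_mul_indep (p : ℝ) {D : Finset E} {G : (E → Bool) → ℝ} (hG : Indep D G)
    (F : (E → Bool) → ℝ) (x : E → Bool) :
    av p D (fun x => G x * F x) x = G x * av p D F x := by
  unfold av
  rw [← Ex_mul_left]
  refine Ex_congr p fun z => ?_
  simp only [hG z x]

theorem av_of_indep (p : ℝ) {D : Finset E} {G : (E → Bool) → ℝ} (hG : Indep D G)
    (x : E → Bool) : av p D G x = G x := by
  unfold av
  rw [Ex_congr p (fun z => hG z x), Ex_const]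

omit [Fintype E] in
theorem merge_merge_union (D1 D2 : Finset E) (y z x : E → Bool) :
    merge D2 y (merge D1 z x) = merge (D1 ∪ D2) (merge D2 y z) x := by
  funext e
  by_cases h1 : e ∈ D1 <;> by_cases h2 : e ∈ D2 <;> simp [merge, h1, h2]

theorem av_av (p : ℝ) (D1 D2 : Finset E) (F : (E → Bool) → ℝ) (x : E → Bool) :
    av p D1 (av p D2 F) x = av p (D1 ∪ D2) F x := by
  unfold av
  simp_rw [merge_merge_union]
  have h := Ex_Ex_merge (E := E) p D2 (fun a _ => F (merge (D1 ∪ D2) a x))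
  rw [h]
  refine Ex_congr p fun z => ?_
  rw [Ex_const]


theorem av_congr (p : ℝ) (D : Finset E) {F G : (E → Bool) → ℝ}
    (h : ∀ x, F x = G x) (x : E → Bool) : av p D F x = av p D G x :=
  Ex_congr p fun z => h _

/-! ### Characters -/

/-- The normalised coin. -/
noncomputable def phi (p : ℝ) (b : Bool) : ℝ := ((if b then 1 else 0) - p) / Real.sqrt (p * (1 - p))

theorem phi_mean {p : ℝ} : p * phi p true + (1 - p) * phi p false = 0 := by
  unfold phi
  simp only [if_true, Bool.false_eq_true, if_false]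
  ring

theorem phi_sq_mean {p : ℝ} (h0 : 0 < p) (h1 : p < 1) :
    p * phi p true ^ 2 + (1 - p) * phi p false ^ 2 = 1 := by
  have hq : 0 < p * (1 - p) := mul_pos h0 (by linarith)
  have hp : p ≠ 0 := h0.ne'
  have hp' : 1 - p ≠ 0 := by linarith
  unfold phi
  simp only [if_true, Bool.false_eq_true, if_false, div_pow, Real.sq_sqrt hq.le]
  field_simp
  ring

/-- The character of a set of coordinates. -/
noncomputable def chi (p : ℝ) (S : Finset E) (x : E → Bool) : ℝ := ∏ e ∈ S, phi p (x e)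

/-- The Fourier coefficient. -/
noncomputable def fc (p : ℝ) (F : (E → Bool) → ℝ) (S : Finset E) : ℝ :=
  Ex p (fun x => F x * chi p S x)

theorem chi_eq_prod (p : ℝ) (S : Finset E) (x : E → Bool) :
    chi p S x = ∏ e, (if e ∈ S then phi p (x e) else 1) := by
  unfold chi
  rw [Finset.prod_ite_mem]
  simp

theorem Ex_chi_mul_chi {p : ℝ} (h0 : 0 < p) (h1 : p < 1) (S T : Finset E) :
    Ex p (fun x => chi p S x * chi p T x) = if S = T then 1 else 0 := by
  have h : ∀ x : E → Bool, chi p S x * chi p T x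
      = ∏ e, ((if e ∈ S then phi p (x e) else 1) * (if e ∈ T then phi p (x e) else 1)) := by
    intro x
    rw [chi_eq_prod, chi_eq_prod, Finset.prod_mul_distrib]
  rw [Ex_congr p h]
  have := Ex_prod (E := E) p
    (fun e b => (if e ∈ S then phi p b else 1) * (if e ∈ T then phi p b else 1))
  rw [this]
  split_ifs with hST
  · subst hST
    refine Finset.prod_eq_one fun e _ => ?_
    by_cases he : e ∈ S
    · simp only [he, if_true]
      have := phi_sq_mean h0 h1
      nlinarith [this]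
    · simp [he]
  · have : ∃ e, ¬ (e ∈ S ↔ e ∈ T) := by
      by_contra hcon
      push Not at hcon
      exact hST (Finset.ext hcon)
    obtain ⟨e, he⟩ := this
    refine Finset.prod_eq_zero (Finset.mem_univ e) ?_
    have hm := phi_mean (p := p)
    by_cases hS : e ∈ S <;> by_cases hT : e ∈ T
    · exact absurd (by simp [hS, hT]) he
    · simp only [hS, hT, if_true, if_false]; linarith
    · simp only [hS, hT, if_true, if_false]; linarith
    · exact absurd (by simp [hS, hT]) he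




theorem chi_merge_of_subset (p : ℝ) {T D : Finset E} (h : T ⊆ D) (z x : E → Bool) :
    chi p T (merge D z x) = chi p T z := by
  unfold chi
  refine Finset.prod_congr rfl fun e he => ?_
  rw [merge_mem (h he)]

theorem indep_chi (p : ℝ) {S D : Finset E} (h : Disjoint S D) : Indep D (chi p S) := by
  intro z x
  unfold chi
  refine Finset.prod_congr rfl fun e he => ?_
  rw [merge_not_mem (Finset.disjoint_left.mp h he)]

theorem chi_union (p : ℝ) {S T : Finset E} (h : Disjoint S T) (x : E → Bool) :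
    chi p (S ∪ T) x = chi p S x * chi p T x := by
  unfold chi
  exact Finset.prod_union h

/-- The mean of a nontrivial character vanishes. -/
theorem Ex_chi {p : ℝ} (h0 : 0 < p) (h1 : p < 1) {S : Finset E} (h : S.Nonempty) :
    Ex p (chi p S) = 0 := by
  have := Ex_chi_mul_chi (E := E) h0 h1 S ∅
  rw [if_neg h.ne_empty] at this
  rw [← this]
  refine Ex_congr p fun x => ?_
  simp [chi]

theorem av_chi_of_not_disjoint {p : ℝ} (h0 : 0 < p) (h1 : p < 1) {S D : Finset E}
    (h : (S ∩ D).Nonempty) (x : E → Bool) : av p D (chi p S) x = 0 := by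
  have hS : S = (S \ D) ∪ (S ∩ D) := (Finset.sdiff_union_inter S D).symm
  have hdis : Disjoint (S \ D) (S ∩ D) := Finset.disjoint_sdiff_inter S D
  have e1 : ∀ y, chi p S y = chi p (S \ D) y * chi p (S ∩ D) y := by
    intro y
    conv_lhs => rw [hS]
    exact chi_union p hdis y
  rw [av_congr p D e1]
  rw [av_mul_indep p (indep_chi p Finset.sdiff_disjoint)]
  have : av p D (chi p (S ∩ D)) x = 0 := by
    unfold av
    rw [← Ex_chi h0 h1 h]
    refine Ex_congr p fun z => ?_
    exact chi_merge_of_subset p Finset.inter_subset_right z x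
  rw [this, mul_zero]

/-- Self-adjointness of averaging. -/
theorem Ex_mul_av (p : ℝ) (D : Finset E) (F G : (E → Bool) → ℝ) :
    Ex p (fun x => F x * av p D G x) = Ex p (fun x => av p D F x * av p D G x) := by
  have h1 : Ex p (fun x => F x * av p D G x) = Ex p (av p D (fun x => F x * av p D G x)) :=
    (Ex_av p D _).symm
  rw [h1]
  refine Ex_congr p fun x => ?_
  have h2 : av p D (fun x => F x * av p D G x) x = av p D (fun x => av p D G x * F x) x :=
    av_congr p D (fun y => mul_comm _ _) x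
  rw [h2, av_mul_indep p (indep_av p D G), mul_comm]

theorem Ex_mul_av_comm (p : ℝ) (D : Finset E) (F G : (E → Bool) → ℝ) :
    Ex p (fun x => F x * av p D G x) = Ex p (fun x => av p D F x * G x) := by
  rw [Ex_mul_av p D F G]
  have : Ex p (fun x => av p D F x * G x) = Ex p (fun x => G x * av p D F x) :=
    Ex_congr p fun x => mul_comm _ _
  rw [this, Ex_mul_av p D G F]
  exact Ex_congr p fun x => mul_comm _ _

/-- Fourier coefficients of an average. -/
theorem fc_av {p : ℝ} (h0 : 0 < p) (h1 : p < 1) (D : Finset E) (F : (E → Bool) → ℝ)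
    (S : Finset E) : fc p (av p D F) S = if Disjoint S D then fc p F S else 0 := by
  unfold fc
  rw [← Ex_mul_av_comm]
  split_ifs with h
  · refine Ex_congr p fun x => ?_
    rw [av_of_indep p (indep_chi p h)]
  · have hne : (S ∩ D).Nonempty := by
      rw [Finset.not_disjoint_iff_nonempty_inter] at h
      exact h
    rw [Ex_congr p (G := fun _ => (0 : ℝ)) (fun x => by rw [av_chi_of_not_disjoint h0 h1 hne x, mul_zero])]
    exact Ex_const p 0

end Crest.Agent.R056V
end

-- ▼ part R056/Mix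
section

/-! Row 56: rerandomizing a set `J` of coordinates; conditional level inequality.
Uses helper723's averaging library `R056V.Cube`. -/

set_option autoImplicit false
set_option linter.unusedSectionVars false

namespace Crest.Agent.R056

open Finset Crest.FinProb

variable {ι : Type*} [Fintype ι] [DecidableEq ι] {p : ℝ}

theorem Ex_eq_V (p : ℝ) (F : (ι → Bool) → ℝ) : Ex p F = R056V.Ex p F := rfl


theorem phi_eq_V (p : ℝ) (b : Bool) : phi p b = R056V.phi p b := by
  cases b <;> simp [phi, R056V.phi]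

theorem chi_eq_V (p : ℝ) (S : Finset ι) (x : ι → Bool) : chi p S x = R056V.chi p S x := by
  unfold chi R056V.chi
  exact Finset.prod_congr rfl fun i _ => phi_eq_V p _

theorem hat_eq_V (p : ℝ) (F : (ι → Bool) → ℝ) (S : Finset ι) : hat p F S = R056V.fc p F S := by
  unfold hat R056V.fc
  rw [Ex_eq_V]
  exact R056V.Ex_congr p fun x => by rw [chi_eq_V]

theorem Ex_EJ (J : Finset ι) (F : (ι → Bool) → ℝ) : Ex p (EJ p J F) = Ex p F :=
  R056V.Ex_av p J F

theorem EJ_EJ (J J' : Finset ι) (F : (ι → Bool) → ℝ) (x : ι → Bool) :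
    EJ p J (EJ p J' F) x = EJ p (J ∪ J') F x := R056V.av_av p J J' F x

theorem EJ_mono (hp0 : 0 ≤ p) (hp1 : p ≤ 1) (J : Finset ι) {F G : (ι → Bool) → ℝ}
    (h : ∀ ω, F ω ≤ G ω) (x : ι → Bool) : EJ p J F x ≤ EJ p J G x :=
  Ex_mono hp0 hp1 fun _ => h _

theorem Ex_sq_le (hp0 : 0 ≤ p) (hp1 : p ≤ 1) (F : (ι → Bool) → ℝ) :
    Ex p F ^ 2 ≤ Ex p (fun y => F y ^ 2) := by
  have h := Ex_mul_sq_le hp0 hp1 (fun _ => (1 : ℝ)) F
  simpa [Ex_const] using h

theorem EJ_sq_le (hp0 : 0 ≤ p) (hp1 : p ≤ 1) (J : Finset ι) (F : (ι → Bool) → ℝ)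
    (x : ι → Bool) : EJ p J F x ^ 2 ≤ EJ p J (fun y => F y ^ 2) x :=
  Ex_sq_le hp0 hp1 fun y => F (mix J x y)

theorem abs_EJ_le (hp0 : 0 ≤ p) (hp1 : p ≤ 1) (J : Finset ι) (F : (ι → Bool) → ℝ)
    (x : ι → Bool) : |EJ p J F x| ≤ EJ p J (fun y => |F y|) x :=
  R056V.abs_Ex_le hp0 hp1 _

theorem Ex_abs_EJ_le (hp0 : 0 ≤ p) (hp1 : p ≤ 1) (J : Finset ι) (F : (ι → Bool) → ℝ) :
    Ex p (fun x => |EJ p J F x|) ≤ Ex p (fun x => |F x|) := by
  rw [← Ex_EJ (p := p) J (fun x => |F x|)]
  exact Ex_mono hp0 hp1 fun x => abs_EJ_le hp0 hp1 J F x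

theorem mix_update_left (J : Finset ι) (e : ι) (he : e ∉ J) (x y : ι → Bool) (b : Bool) :
    mix J (Function.update x e b) y = Function.update (mix J x y) e b := by
  funext i
  by_cases hi : i = e
  · subst hi
    simp [mix, he]
  · simp [mix, Function.update_of_ne hi]

theorem Dx_EJ (J : Finset ι) (e : ι) (he : e ∉ J) (F : (ι → Bool) → ℝ) (x : ι → Bool) :
    Dx e (EJ p J F) x = EJ p J (Dx e F) x := by
  unfold Dx EJ
  rw [← Ex_sub]
  congr 1
  funext y
  rw [mix_update_left J e he, mix_update_left J e he]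

theorem hat_EJ (hp0 : 0 < p) (hp1 : p < 1) (J : Finset ι) (F : (ι → Bool) → ℝ)
    (S : Finset ι) : hat p (EJ p J F) S = if Disjoint S J then hat p F S else 0 := by
  rw [hat_eq_V, hat_eq_V]
  exact R056V.fc_av hp0 hp1 J F S

theorem chi_mix (p : ℝ) (J S : Finset ι) (x y : ι → Bool) :
    chi p S (mix J x y) = chi p (S ∩ J) y * chi p (S \ J) x := by
  unfold chi
  rw [← Finset.prod_sdiff (Finset.inter_subset_left : S ∩ J ⊆ S), Finset.sdiff_inter_self_left,
    mul_comm]
  congr 1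
  · refine Finset.prod_congr rfl fun i hi => ?_
    simp [mix, (Finset.mem_inter.mp hi).2]
  · refine Finset.prod_congr rfl fun i hi => ?_
    simp [mix, (Finset.mem_sdiff.mp hi).2]

/-- Fourier coefficients of the restricted function. -/
theorem hat_mix (hp0 : 0 < p) (hp1 : p < 1) (J : Finset ι) (F : (ι → Bool) → ℝ)
    (T : Finset ι) (x : ι → Bool) :
    hat p (fun y => F (mix J x y)) T
      = ∑ S ∈ (univ : Finset (Finset ι)).filter (fun S => S ∩ J = T),
          hat p F S * chi p (S \ J) x := by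
  unfold hat
  have h : ∀ y, F (mix J x y) * chi p T y
      = ∑ S : Finset ι, (hat p F S * chi p (S \ J) x) * (chi p (S ∩ J) y * chi p T y) := by
    intro y
    rw [expansion hp0 hp1 F (mix J x y), Finset.sum_mul]
    refine Finset.sum_congr rfl fun S _ => ?_
    rw [chi_mix]
    ring
  simp only [h]
  rw [Ex_sum]
  rw [Finset.sum_filter]
  refine Finset.sum_congr rfl fun S _ => ?_
  rw [Ex_const_mul, Ex_chi_mul_chi hp0 hp1]
  split_ifs with hST
  · rw [mul_one]; rfl
  · rw [mul_zero]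

theorem Ex_hat_mix_sq (hp0 : 0 < p) (hp1 : p < 1) (J : Finset ι) (F : (ι → Bool) → ℝ)
    (T : Finset ι) :
    Ex p (fun x => hat p (fun y => F (mix J x y)) T ^ 2)
      = ∑ S ∈ (univ : Finset (Finset ι)).filter (fun S => S ∩ J = T), hat p F S ^ 2 := by
  simp only [hat_mix hp0 hp1]
  have h : ∀ x, (∑ S ∈ (univ : Finset (Finset ι)).filter (fun S => S ∩ J = T),
        hat p F S * chi p (S \ J) x) ^ 2
      = ∑ S ∈ (univ : Finset (Finset ι)).filter (fun S => S ∩ J = T),
        ∑ S' ∈ (univ : Finset (Finset ι)).filter (fun S => S ∩ J = T),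
          (hat p F S * hat p F S') * (chi p (S \ J) x * chi p (S' \ J) x) := by
    intro x
    rw [sq, Finset.sum_mul_sum]
    refine Finset.sum_congr rfl fun S _ => Finset.sum_congr rfl fun S' _ => ?_
    ring
  simp only [h]
  rw [Ex_sum]
  refine Finset.sum_congr rfl fun S hS => ?_
  rw [Ex_sum]
  rw [Finset.sum_eq_single_of_mem S hS]
  · rw [Ex_const_mul, Ex_chi_mul_chi hp0 hp1, if_pos rfl]
    ring
  · intro S' hS' hne
    rw [Ex_const_mul, Ex_chi_mul_chi hp0 hp1, if_neg, mul_zero]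
    intro heq
    apply hne
    rw [Finset.mem_filter] at hS hS'
    rw [← Finset.sdiff_union_inter S' J, ← Finset.sdiff_union_inter S J, heq, hS.2, hS'.2]

/-- Conditional level inequality. -/
theorem cond_level (hp0 : 0 < p) (hp1 : p < 1) (J : Finset ι) (F : (ι → Bool) → ℝ) (d : ℕ)
    (c : ℝ) (hc : 0 ≤ c) (h : ∀ x, EJ p J (fun y => F y ^ 2) x ≤ c ^ 2) :
    ∑ S ∈ (univ : Finset (Finset ι)).filter (fun S => (S ∩ J).card ≤ d), hat p F S ^ 2
      ≤ Real.sqrt (4 / (p * (1 - p))) ^ d * c * Ex p (fun ω => |F ω|) := by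
  set B : ℝ := Real.sqrt (4 / (p * (1 - p))) ^ d with hB
  have hB0 : 0 ≤ B := by positivity
  -- pointwise level inequality
  have h1 : ∀ x, lowMass p d (fun y => F (mix J x y)) ≤ B * c * EJ p J (fun y => |F y|) x := by
    intro x
    have hl := level_ineq_abs hp0 hp1 d (fun y => F (mix J x y))
    refine hl.trans ?_
    have e1 : Ex p (fun ω => |F (mix J x ω)|) = EJ p J (fun y => |F y|) x := rfl
    have e2 : Real.sqrt (Ex p (fun ω => F (mix J x ω) ^ 2)) ≤ c := by
      have := h x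
      calc Real.sqrt (Ex p (fun ω => F (mix J x ω) ^ 2)) ≤ Real.sqrt (c ^ 2) :=
            Real.sqrt_le_sqrt this
        _ = c := Real.sqrt_sq hc
    have e3 : 0 ≤ EJ p J (fun y => |F y|) x :=
      Ex_nonneg hp0.le hp1.le fun _ => abs_nonneg _
    rw [e1]
    calc B * EJ p J (fun y => |F y|) x * Real.sqrt (Ex p (fun ω => F (mix J x ω) ^ 2))
        ≤ B * EJ p J (fun y => |F y|) x * c :=
          mul_le_mul_of_nonneg_left e2 (mul_nonneg hB0 e3)
      _ = B * c * EJ p J (fun y => |F y|) x := by ring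
  have h2 : Ex p (fun x => lowMass p d (fun y => F (mix J x y)))
      ≤ B * c * Ex p (fun ω => |F ω|) := by
    refine (Ex_mono hp0.le hp1.le h1).trans ?_
    rw [Ex_const_mul]
    have : Ex p (fun x => EJ p J (fun y => |F y|) x) = Ex p (fun ω => |F ω|) :=
      Ex_EJ J (fun y => |F y|)
    rw [this]
  refine le_trans ?_ h2
  unfold lowMass
  rw [Ex_sum]
  -- group by the trace
  rw [← Finset.sum_fiberwise_of_maps_to (s := (univ : Finset (Finset ι)).filter
      (fun S => (S ∩ J).card ≤ d)) (t := (univ : Finset (Finset ι)).filter (fun S => S.card ≤ d))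
      (g := fun S => S ∩ J)]
  · refine Finset.sum_le_sum fun T hT => ?_
    rw [Ex_hat_mix_sq hp0 hp1]
    refine Finset.sum_le_sum_of_subset_of_nonneg ?_ fun S _ _ => sq_nonneg _
    intro S hS
    simp only [Finset.mem_filter, Finset.mem_univ, true_and] at hS ⊢
    exact hS.2
  · intro S hS
    simp only [Finset.mem_filter, Finset.mem_univ, true_and] at hS ⊢
    exact hS

end Crest.Agent.R056
end

-- ▼ part R056/Noise
section

/-! Row 56: product measures with coordinate-dependent biases, the noise operator `Tn`, and the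
pointwise (Bessel) gradient bound. OWNER: helper406. -/

set_option autoImplicit false
set_option linter.unusedSectionVars false

namespace Crest.Agent.R056

open Finset Crest.FinProb

section Noise

variable {ι : Type*} [Fintype ι] [DecidableEq ι] {p δ : ℝ}

/-- Product weight with bias `ν i` at the coordinate `i`. -/
noncomputable def wt (ν : ι → ℝ) (x : ι → Bool) : ℝ := ∏ i, if x i then ν i else 1 - ν i

theorem EW_def (ν : ι → ℝ) (g : (ι → Bool) → ℝ) : EW ν g = ∑ x : ι → Bool, wt ν x * g x := rfl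

/-- weight without the coordinate `e` -/
noncomputable def wte (ν : ι → ℝ) (e : ι) (x : ι → Bool) : ℝ :=
  ∏ i ∈ univ.erase e, if x i then ν i else 1 - ν i

theorem wt_eq (ν : ι → ℝ) (e : ι) (x : ι → Bool) :
    wt ν x = (if x e then ν e else 1 - ν e) * wte ν e x := by
  unfold wt wte
  rw [Finset.mul_prod_erase univ (fun i => if x i then ν i else 1 - ν i) (Finset.mem_univ e)]

theorem wte_update (ν : ι → ℝ) (e : ι) (x : ι → Bool) (b : Bool) :
    wte ν e (Function.update x e b) = wte ν e x := by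
  unfold wte
  apply Finset.prod_congr rfl
  intro i hi
  rw [Function.update_of_ne (Finset.ne_of_mem_erase hi)]

theorem wte_update_left (ν : ι → ℝ) (e : ι) (x : ι → Bool) (a : ℝ) :
    wte (Function.update ν e a) e x = wte ν e x := by
  unfold wte
  apply Finset.prod_congr rfl
  intro i hi
  rw [Function.update_of_ne (Finset.ne_of_mem_erase hi)]

/-- flipping one coordinate, as an equivalence -/
def flipE (e : ι) : (ι → Bool) ≃ (ι → Bool) where
  toFun x := Function.update x e (!x e)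
  invFun x := Function.update x e (!x e)
  left_inv x := by
    ext i
    by_cases h : i = e
    · subst h; simp
    · simp [h]
  right_inv x := by
    ext i
    by_cases h : i = e
    · subst h; simp
    · simp [h]

/-- The basic one-coordinate identity. -/
theorem two_mul_EW (ν : ι → ℝ) (e : ι) (g : (ι → Bool) → ℝ) :
    2 * EW ν g = ∑ x : ι → Bool, wte ν e x *
      (ν e * g (Function.update x e true) + (1 - ν e) * g (Function.update x e false)) := by
  have h1 : EW ν g = ∑ x : ι → Bool, wt ν (flipE e x) * g (flipE e x) := by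
    simp only [EW_def]
    exact (Equiv.sum_comp (flipE e) (fun x => wt ν x * g x)).symm
  have h2 : 2 * EW ν g = EW ν g + ∑ x : ι → Bool, wt ν (flipE e x) * g (flipE e x) := by
    rw [← h1]; ring
  rw [h2]
  simp only [EW_def]
  rw [← Finset.sum_add_distrib]
  apply Finset.sum_congr rfl
  intro x _
  have e1 : flipE e x = Function.update x e (!x e) := rfl
  rw [e1, wt_eq ν e x, wt_eq ν e (Function.update x e (!x e)), wte_update]
  rw [Function.update_self]
  cases hx : x e with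
  | false =>
    have h3 : Function.update x e false = x := by
      rw [← hx]; exact Function.update_eq_self e x
    simp only [Bool.not_false, if_true, h3]
    simp
    ring
  | true =>
    have h3 : Function.update x e true = x := by
      rw [← hx]; exact Function.update_eq_self e x
    simp only [Bool.not_true, if_true, h3]
    simp
    ring

theorem EW_add (ν : ι → ℝ) (g h : (ι → Bool) → ℝ) :
    EW ν (fun x => g x + h x) = EW ν g + EW ν h := by
  simp only [EW_def]
  rw [← Finset.sum_add_distrib]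
  apply Finset.sum_congr rfl
  intro x _
  ring

theorem EW_sub (ν : ι → ℝ) (g h : (ι → Bool) → ℝ) :
    EW ν (fun x => g x - h x) = EW ν g - EW ν h := by
  simp only [EW_def]
  rw [← Finset.sum_sub_distrib]
  apply Finset.sum_congr rfl
  intro x _
  ring

theorem EW_const_mul (ν : ι → ℝ) (c : ℝ) (g : (ι → Bool) → ℝ) :
    EW ν (fun x => c * g x) = c * EW ν g := by
  simp only [EW_def]
  rw [Finset.mul_sum]
  apply Finset.sum_congr rfl
  intro x _
  ring

theorem EW_sum {κ : Type*} (ν : ι → ℝ) (s : Finset κ) (g : κ → (ι → Bool) → ℝ) :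
    EW ν (fun x => ∑ k ∈ s, g k x) = ∑ k ∈ s, EW ν (g k) := by
  simp only [EW_def]
  rw [Finset.sum_comm]
  apply Finset.sum_congr rfl
  intro x _
  rw [Finset.mul_sum]

theorem wt_nonneg {ν : ι → ℝ} (h0 : ∀ i, 0 ≤ ν i) (h1 : ∀ i, ν i ≤ 1) (x : ι → Bool) :
    0 ≤ wt ν x := by
  unfold wt
  apply Finset.prod_nonneg
  intro i _
  split_ifs
  · exact h0 i
  · linarith [h1 i]

theorem EW_nonneg {ν : ι → ℝ} (h0 : ∀ i, 0 ≤ ν i) (h1 : ∀ i, ν i ≤ 1)
    {g : (ι → Bool) → ℝ} (hg : ∀ x, 0 ≤ g x) : 0 ≤ EW ν g := by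
  simp only [EW_def]
  apply Finset.sum_nonneg
  intro x _
  exact mul_nonneg (wt_nonneg h0 h1 x) (hg x)

theorem EW_mono {ν : ι → ℝ} (h0 : ∀ i, 0 ≤ ν i) (h1 : ∀ i, ν i ≤ 1)
    {g h : (ι → Bool) → ℝ} (hg : ∀ x, g x ≤ h x) : EW ν g ≤ EW ν h := by
  simp only [EW_def]
  apply Finset.sum_le_sum
  intro x _
  exact mul_le_mul_of_nonneg_left (hg x) (wt_nonneg h0 h1 x)

theorem EW_prod (ν : ι → ℝ) (u : ι → Bool → ℝ) :
    EW ν (fun x => ∏ i, u i (x i)) = ∏ i, (ν i * u i true + (1 - ν i) * u i false) := by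
  simp only [EW_def]
  unfold wt
  have h1 : ∀ i, (ν i * u i true + (1 - ν i) * u i false)
      = ∑ b : Bool, (if b then ν i else 1 - ν i) * u i b := by
    intro i
    simp
  rw [Finset.prod_congr rfl (fun i _ => h1 i)]
  rw [Finset.prod_univ_sum]
  rw [Fintype.piFinset_univ]
  apply Finset.sum_congr rfl
  intro x _
  rw [← Finset.prod_mul_distrib]

theorem EW_one (ν : ι → ℝ) : EW ν (fun _ => (1 : ℝ)) = 1 := by
  have h := EW_prod ν (fun _ _ => (1 : ℝ))
  simpa using h

/-- centered coordinate -/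
noncomputable def ctr (ν : ι → ℝ) (e : ι) (x : ι → Bool) : ℝ := (if x e then 1 else 0) - ν e

theorem EW_mul_ctr (ν : ι → ℝ) (e : ι) (g : (ι → Bool) → ℝ) :
    EW ν (fun x => g x * ctr ν e x) = ν e * (1 - ν e) * EW ν (Dx e g) := by
  have h1 := two_mul_EW ν e (fun x => g x * ctr ν e x)
  have h2 := two_mul_EW ν e (Dx e g)
  have h3 : 2 * EW ν (fun x => g x * ctr ν e x) = 2 * (ν e * (1 - ν e) * EW ν (Dx e g)) := by
    have : 2 * (ν e * (1 - ν e) * EW ν (Dx e g)) = ν e * (1 - ν e) * (2 * EW ν (Dx e g)) := by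
      ring
    rw [this, h1, h2, Finset.mul_sum]
    apply Finset.sum_congr rfl
    intro x _
    simp only [ctr, Dx, Function.update_self, Function.update_idem]
    simp
    ring
  linarith

theorem Dx_ctr (ν : ι → ℝ) (e i : ι) (x : ι → Bool) :
    Dx e (ctr ν i) x = if e = i then 1 else 0 := by
  unfold Dx ctr
  by_cases h : e = i
  · subst h
    simp
  · have h' : i ≠ e := fun h2 => h h2.symm
    simp [Function.update_of_ne h', h]

theorem EW_ctr_mul_ctr (ν : ι → ℝ) (e i : ι) :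
    EW ν (fun x => ctr ν i x * ctr ν e x) = if e = i then ν e * (1 - ν e) else 0 := by
  rw [EW_mul_ctr]
  have : Dx e (ctr ν i) = fun _ => if e = i then (1 : ℝ) else 0 := by
    funext x
    exact Dx_ctr ν e i x
  rw [this]
  by_cases h : e = i
  · simp only [h, if_true]
    rw [EW_one, mul_one]
  · simp only [h, if_false]
    have : EW ν (fun _ : ι → Bool => (0 : ℝ)) = 0 := by
      simp [EW_def]
    rw [this, mul_zero]

/-- Bessel's inequality for the first-level coefficients. -/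
theorem bessel {ν : ι → ℝ} (h0 : ∀ i, 0 ≤ ν i) (h1 : ∀ i, ν i ≤ 1) (g : (ι → Bool) → ℝ) :
    ∑ e, ν e * (1 - ν e) * EW ν (Dx e g) ^ 2 ≤ EW ν (fun x => g x ^ 2) := by
  set c : ι → ℝ := fun e => EW ν (Dx e g) with hc
  have hpos : 0 ≤ EW ν (fun x => (g x - ∑ e, c e * ctr ν e x) ^ 2) :=
    EW_nonneg h0 h1 (fun x => sq_nonneg _)
  have hexp : (fun x => (g x - ∑ e, c e * ctr ν e x) ^ 2)
      = fun x => (g x ^ 2 - ∑ e, (2 * c e) * (g x * ctr ν e x))
        + ∑ e, ∑ i, (c e * c i) * (ctr ν i x * ctr ν e x) := by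
    funext x
    have h2 : (∑ e, c e * ctr ν e x) ^ 2
        = ∑ e, ∑ i, (c e * c i) * (ctr ν i x * ctr ν e x) := by
      rw [sq, Finset.sum_mul_sum]
      apply Finset.sum_congr rfl
      intro e _
      apply Finset.sum_congr rfl
      intro i _
      ring
    have h3 : ∑ e, (2 * c e) * (g x * ctr ν e x) = 2 * g x * ∑ e, c e * ctr ν e x := by
      rw [Finset.mul_sum]
      apply Finset.sum_congr rfl
      intro e _
      ring
    rw [h3, ← h2]
    ring
  rw [hexp, EW_add, EW_sub, EW_sum, EW_sum] at hpos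
  have h4 : ∑ e, EW ν (fun x => (2 * c e) * (g x * ctr ν e x))
      = 2 * ∑ e, ν e * (1 - ν e) * c e ^ 2 := by
    rw [Finset.mul_sum]
    apply Finset.sum_congr rfl
    intro e _
    rw [EW_const_mul, EW_mul_ctr]
    simp only [hc]
    ring
  have h5 : ∑ e, EW ν (fun x => ∑ i, (c e * c i) * (ctr ν i x * ctr ν e x))
      = ∑ e, ν e * (1 - ν e) * c e ^ 2 := by
    apply Finset.sum_congr rfl
    intro e _
    rw [EW_sum]
    have : ∀ i ∈ (univ : Finset ι), EW ν (fun x => (c e * c i) * (ctr ν i x * ctr ν e x))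
        = if e = i then (c e * c i) * (ν e * (1 - ν e)) else 0 := by
      intro i _
      rw [EW_const_mul, EW_ctr_mul_ctr]
      split_ifs <;> simp
    rw [Finset.sum_congr rfl this]
    simp
    ring
  rw [h4, h5] at hpos
  linarith

theorem nu_update (ω : ι → Bool) (e : ι) (b : Bool) :
    nu p δ (Function.update ω e b)
      = Function.update (nu p δ ω) e ((1 - δ) * (if b then 1 else 0) + δ * p) := by
  funext i
  by_cases h : i = e
  · subst h
    simp [nu]
  · simp [nu, Function.update_of_ne h]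

/-- The derivative of the noise operator. -/
theorem Dx_Tn_EW (e : ι) (g : (ι → Bool) → ℝ) (ω : ι → Bool) :
    Dx e (Tn p δ g) ω = (1 - δ) * EW (nu p δ ω) (Dx e g) := by
  have h1 : ∀ a : ℝ, 2 * EW (Function.update (nu p δ ω) e a) g
      = ∑ x : ι → Bool, wte (nu p δ ω) e x *
        (a * g (Function.update x e true) + (1 - a) * g (Function.update x e false)) := by
    intro a
    rw [two_mul_EW _ e g]
    apply Finset.sum_congr rfl
    intro x _
    rw [wte_update_left, Function.update_self]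
  have h2 : 2 * EW (nu p δ ω) (Dx e g)
      = ∑ x : ι → Bool, wte (nu p δ ω) e x *
        (g (Function.update x e true) - g (Function.update x e false)) := by
    rw [two_mul_EW _ e (Dx e g)]
    apply Finset.sum_congr rfl
    intro x _
    simp only [Dx, Function.update_idem]
    ring
  have h3 : 2 * Dx e (Tn p δ g) ω = 2 * ((1 - δ) * EW (nu p δ ω) (Dx e g)) := by
    have e1 : 2 * ((1 - δ) * EW (nu p δ ω) (Dx e g))
        = (1 - δ) * (2 * EW (nu p δ ω) (Dx e g)) := by ring
    rw [e1, h2]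
    have e2 : 2 * Dx e (Tn p δ g) ω
        = 2 * EW (nu p δ (Function.update ω e true)) g
          - 2 * EW (nu p δ (Function.update ω e false)) g := by
      simp only [Dx, Tn]
      ring
    rw [e2, nu_update, nu_update, h1, h1, ← Finset.sum_sub_distrib, Finset.mul_sum]
    apply Finset.sum_congr rfl
    intro x _
    simp
    ring
  linarith

theorem nu_nonneg (hp0 : 0 ≤ p) (hδ0 : 0 ≤ δ) (hδ1 : δ ≤ 1) (ω : ι → Bool) (i : ι) :
    0 ≤ nu p δ ω i := by
  unfold nu
  have h1 : 0 ≤ (1 - δ) * (if ω i then (1 : ℝ) else 0) := by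
    apply mul_nonneg (by linarith)
    split_ifs <;> norm_num
  have h2 : 0 ≤ δ * p := mul_nonneg hδ0 hp0
  linarith

theorem nu_le_one (hp1 : p ≤ 1) (hδ0 : 0 ≤ δ) (hδ1 : δ ≤ 1) (ω : ι → Bool) (i : ι) :
    nu p δ ω i ≤ 1 := by
  unfold nu
  have h1 : (1 - δ) * (if ω i then (1 : ℝ) else 0) ≤ 1 - δ := by
    have : (if ω i then (1 : ℝ) else 0) ≤ 1 := by split_ifs <;> norm_num
    nlinarith
  have h2 : δ * p ≤ δ := by nlinarith
  linarith

theorem nu_var (hp0 : 0 ≤ p) (hp1 : p ≤ 1) (hδ0 : 0 ≤ δ) (hδ1 : δ ≤ 1) (ω : ι → Bool) (i : ι) :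
    δ * (p * (1 - p)) ≤ nu p δ ω i * (1 - nu p δ ω i) := by
  unfold nu
  split_ifs
  · have e1 : ((1 - δ) * 1 + δ * p) * (1 - ((1 - δ) * 1 + δ * p))
        = δ * (1 - p) * (1 - δ * (1 - p)) := by ring
    rw [e1]
    have h1 : p ≤ 1 - δ * (1 - p) := by nlinarith
    have h2 : 0 ≤ δ * (1 - p) := mul_nonneg hδ0 (by linarith)
    nlinarith [mul_le_mul_of_nonneg_left h1 h2]
  · have e1 : ((1 - δ) * 0 + δ * p) * (1 - ((1 - δ) * 0 + δ * p))
        = δ * p * (1 - δ * p) := by ring
    rw [e1]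
    have h1 : 1 - p ≤ 1 - δ * p := by nlinarith
    have h2 : 0 ≤ δ * p := mul_nonneg hδ0 hp0
    nlinarith [mul_le_mul_of_nonneg_left h1 h2]

/-- The pointwise gradient bound. -/
theorem grad_bound (hp0 : 0 < p) (hp1 : p < 1) (hδ0 : 0 < δ) (hδ1 : δ ≤ 1)
    (g : (ι → Bool) → ℝ) (hg : ∀ ω, |g ω| ≤ 1) (ω : ι → Bool) :
    ∑ e, Dx e (Tn p δ g) ω ^ 2 ≤ 1 / (δ * (p * (1 - p))) := by
  have h0 := nu_nonneg (ι := ι) hp0.le hδ0.le hδ1 ω
  have h1 := nu_le_one (ι := ι) hp1.le hδ0.le hδ1 ω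
  have hq : 0 < 1 - p := by linarith
  have hpos : 0 < δ * (p * (1 - p)) := by positivity
  have hb := bessel h0 h1 g
  have hg2 : EW (nu p δ ω) (fun x => g x ^ 2) ≤ 1 := by
    have := EW_mono h0 h1 (g := fun x => g x ^ 2) (h := fun _ => (1 : ℝ)) (fun x => by
      have h := hg x
      have h' := abs_nonneg (g x)
      rw [← sq_abs]
      nlinarith)
    rw [EW_one] at this
    exact this
  rw [le_div_iff₀ hpos, Finset.sum_mul]
  calc ∑ e, Dx e (Tn p δ g) ω ^ 2 * (δ * (p * (1 - p)))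
      ≤ ∑ e, nu p δ ω e * (1 - nu p δ ω e) * EW (nu p δ ω) (Dx e g) ^ 2 := by
        apply Finset.sum_le_sum
        intro e _
        rw [Dx_Tn_EW]
        have h2 := nu_var (ι := ι) hp0.le hp1.le hδ0.le hδ1 ω e
        have h3 : 0 ≤ EW (nu p δ ω) (Dx e g) ^ 2 := sq_nonneg _
        have h4 : ((1 - δ) * EW (nu p δ ω) (Dx e g)) ^ 2 ≤ EW (nu p δ ω) (Dx e g) ^ 2 := by
          rw [mul_pow]
          have h5 : (1 - δ) ^ 2 ≤ 1 := by nlinarith
          nlinarith
        calc ((1 - δ) * EW (nu p δ ω) (Dx e g)) ^ 2 * (δ * (p * (1 - p)))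
            ≤ EW (nu p δ ω) (Dx e g) ^ 2 * (δ * (p * (1 - p))) :=
              mul_le_mul_of_nonneg_right h4 hpos.le
          _ ≤ EW (nu p δ ω) (Dx e g) ^ 2 * (nu p δ ω e * (1 - nu p δ ω e)) :=
              mul_le_mul_of_nonneg_left h2 h3
          _ = nu p δ ω e * (1 - nu p δ ω e) * EW (nu p δ ω) (Dx e g) ^ 2 := by ring
    _ ≤ EW (nu p δ ω) (fun x => g x ^ 2) := hb
    _ ≤ 1 := hg2

/-- The noise operator on characters. -/
theorem Tn_chi (hp0 : 0 < p) (hp1 : p < 1) (S : Finset ι) (ω : ι → Bool) :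
    Tn p δ (chi p S) ω = (1 - δ) ^ S.card * chi p S ω := by
  have hs : 0 < Real.sqrt (p * (1 - p)) := Real.sqrt_pos.2 (mul_pos hp0 (by linarith))
  unfold Tn
  have h1 : (chi p S : (ι → Bool) → ℝ)
      = fun x => ∏ i, (if i ∈ S then phi p (x i) else 1) := by
    funext x
    unfold chi
    rw [Finset.prod_ite_mem]
    simp
  have h0 : EW (nu p δ ω) (chi p S) = ∏ i, (nu p δ ω i * (if i ∈ S then phi p true else 1)
      + (1 - nu p δ ω i) * (if i ∈ S then phi p false else 1)) := by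
    rw [h1]
    exact EW_prod (nu p δ ω) (fun i b => if i ∈ S then phi p b else 1)
  have h2 : ∀ i ∈ (univ : Finset ι), (nu p δ ω i * (if i ∈ S then phi p true else 1)
      + (1 - nu p δ ω i) * (if i ∈ S then phi p false else 1))
      = if i ∈ S then (1 - δ) * phi p (ω i) else 1 := by
    intro i _
    split_ifs with h
    · unfold nu phi
      cases ω i
      · simp
        field_simp
        ring
      · simp
        field_simp
        ring
    · ring
  rw [h0, Finset.prod_congr rfl h2, Finset.prod_ite_mem]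
  simp only [Finset.univ_inter]
  rw [Finset.prod_mul_distrib, Finset.prod_const]
  rfl

theorem Tn_eq_sum (hp0 : 0 < p) (hp1 : p < 1) (g : (ι → Bool) → ℝ) (ω : ι → Bool) :
    Tn p δ g ω = ∑ S : Finset ι, ((1 - δ) ^ S.card * hat p g S) * chi p S ω := by
  have h1 : g = fun x => ∑ S : Finset ι, hat p g S * chi p S x := by
    funext x
    exact expansion hp0 hp1 g x
  have h2 : Tn p δ g ω = EW (nu p δ ω) (fun x => ∑ S : Finset ι, hat p g S * chi p S x) := by
    unfold Tn
    rw [← h1]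
  rw [h2, EW_sum]
  apply Finset.sum_congr rfl
  intro S _
  rw [EW_const_mul]
  have h3 := Tn_chi (δ := δ) hp0 hp1 S ω
  unfold Tn at h3
  rw [h3]
  ring

/-- The noise operator on Fourier coefficients. -/
theorem hat_Tn (hp0 : 0 < p) (hp1 : p < 1) (g : (ι → Bool) → ℝ) (S : Finset ι) :
    hat p (Tn p δ g) S = (1 - δ) ^ S.card * hat p g S := by
  have h1 : Tn p δ g = fun ω => ∑ T ∈ (univ : Finset (Finset ι)),
      ((1 - δ) ^ T.card * hat p g T) * chi p T ω := by
    funext ω
    exact Tn_eq_sum hp0 hp1 g ω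
  rw [h1]
  have := hat_sum_chi hp0 hp1 (univ : Finset (Finset ι))
    (fun T => (1 - δ) ^ T.card * hat p g T) S
  rw [this]
  simp

theorem Ex_Tn (hp0 : 0 < p) (hp1 : p < 1) (g : (ι → Bool) → ℝ) :
    Ex p (Tn p δ g) = Ex p g := by
  have h := hat_Tn (δ := δ) hp0 hp1 g ∅
  unfold hat at h
  simp only [chi_empty, mul_one, Finset.card_empty, pow_zero, one_mul] at h
  exact h

theorem abs_EW_le {ν : ι → ℝ} (h0 : ∀ i, 0 ≤ ν i) (h1 : ∀ i, ν i ≤ 1) (g : (ι → Bool) → ℝ) :
    |EW ν g| ≤ EW ν (fun x => |g x|) := by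
  simp only [EW_def]
  refine (Finset.abs_sum_le_sum_abs _ _).trans ?_
  apply Finset.sum_le_sum
  intro x _
  rw [abs_mul, abs_of_nonneg (wt_nonneg h0 h1 x)]

/-- `L¹` contraction of the gradient of the noise operator. -/
theorem Ex_abs_Dx_Tn_le' (hp0 : 0 < p) (hp1 : p < 1) (hδ0 : 0 ≤ δ) (hδ1 : δ ≤ 1)
    (g : (ι → Bool) → ℝ) (e : ι) :
    Ex p (fun ω => |Dx e (Tn p δ g) ω|) ≤ Ex p (fun ω => |Dx e g ω|) := by
  rw [← Ex_Tn (δ := δ) hp0 hp1 (fun ω => |Dx e g ω|)]
  apply Ex_mono hp0.le hp1.le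
  intro ω
  have h0 := nu_nonneg (ι := ι) hp0.le hδ0 hδ1 ω
  have h1 := nu_le_one (ι := ι) hp1.le hδ0 hδ1 ω
  rw [Dx_Tn_EW, abs_mul, abs_of_nonneg (by linarith : (0 : ℝ) ≤ 1 - δ)]
  have h2 := abs_EW_le h0 h1 (Dx e g)
  have h3 : 0 ≤ EW (nu p δ ω) (fun x => |Dx e g x|) := EW_nonneg h0 h1 (fun x => abs_nonneg _)
  have h4 : 0 ≤ |EW (nu p δ ω) (Dx e g)| := abs_nonneg _
  calc (1 - δ) * |EW (nu p δ ω) (Dx e g)| ≤ 1 * |EW (nu p δ ω) (Dx e g)| := by
        apply mul_le_mul_of_nonneg_right (by linarith) h4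
    _ ≤ EW (nu p δ ω) (fun x => |Dx e g x|) := by linarith


theorem abs_Dx_ind (f : (ι → Bool) → Bool) (e : ι) (x : ι → Bool) :
    |Dx e (ind f) x| = Dx e (ind f) x ^ 2 := by
  unfold Dx ind
  split_ifs <;> simp

theorem Ex_abs_Dx_Tn_le (hp0 : 0 < p) (hp1 : p < 1) (hδ0 : 0 ≤ δ) (hδ1 : δ ≤ 1)
    (f : (ι → Bool) → Bool) (e : ι) :
    Ex p (fun x => |Dx e (Tn p δ (ind f)) x|) ≤ infl p f e := by
  refine (Ex_abs_Dx_Tn_le' hp0 hp1 hδ0 hδ1 (ind f) e).trans (le_of_eq ?_)
  rw [infl_eq_Ex_sq]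
  congr 1
  funext x
  exact abs_Dx_ind f e x

/-- The noise operator commutes with renaming coordinates. -/
theorem Tn_comp_equiv (τ : ι ≃ ι) (g : (ι → Bool) → ℝ) (hg : ∀ ω, g (ω ∘ τ) = g ω)
    (ω : ι → Bool) : Tn p δ g (ω ∘ τ) = Tn p δ g ω := by
  unfold Tn
  simp only [EW_def]
  symm
  apply Fintype.sum_equiv (Equiv.arrowCongr τ.symm (Equiv.refl Bool))
  intro x
  have e1 : (Equiv.arrowCongr τ.symm (Equiv.refl Bool)) x = x ∘ τ := by
    funext i
    simp [Equiv.arrowCongr]
  rw [e1, hg x]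
  congr 1
  unfold wt nu
  symm
  apply Fintype.prod_equiv τ
  intro i
  simp


end Noise

end Crest.Agent.R056
end

-- ▼ part R056/SymAvg
section

/-!
Row 56 (helper406): the symmetrization step. For weights `w` on finite sets of slots which are
invariant under renaming vertices, the average degree of the top vertex equals
`∑ w(S) r |S| / v(S)`.
-/

set_option autoImplicit false

namespace Crest.Agent.R056.SymAvg

open Finset Crest.CombinatoricsR.HypergraphCube

variable {n r : ℕ}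

/-- `relabelSlot` as an equivalence. -/
def slotEquiv (π : Equiv.Perm (Fin n)) : HyperedgeSlot n r ≃ HyperedgeSlot n r where
  toFun := relabelSlot π
  invFun := relabelSlot π.symm
  left_inv e := by
    apply Subtype.ext
    simp only [relabelSlot]
    ext a
    simp
  right_inv e := by
    apply Subtype.ext
    simp only [relabelSlot]
    ext a
    simp

/-- vertices covered by `S` -/
def vts (S : Finset (HyperedgeSlot n r)) : Finset (Fin n) := S.biUnion (fun e => e.1)



/-- the image of `S` under the renaming `π` -/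
def act (π : Equiv.Perm (Fin n)) (S : Finset (HyperedgeSlot n r)) :
    Finset (HyperedgeSlot n r) := S.map (slotEquiv π).toEmbedding

theorem mem_vts (S : Finset (HyperedgeSlot n r)) (a : Fin n) :
    a ∈ vts S ↔ ∃ e ∈ S, a ∈ e.1 := by
  simp [vts]

theorem mem_slotEquiv (π : Equiv.Perm (Fin n)) (e : HyperedgeSlot n r) (a : Fin n) :
    π a ∈ (slotEquiv π e).1 ↔ a ∈ e.1 := by
  show π a ∈ (relabelSlot π e).1 ↔ a ∈ e.1
  simp [relabelSlot]

theorem mem_vts_act (π : Equiv.Perm (Fin n)) (S : Finset (HyperedgeSlot n r)) (a : Fin n) :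
    π a ∈ vts (act π S) ↔ a ∈ vts S := by
  rw [mem_vts, mem_vts]
  constructor
  · rintro ⟨e, he, ha⟩
    rw [act, Finset.mem_map] at he
    obtain ⟨e', he', rfl⟩ := he
    exact ⟨e', he', (mem_slotEquiv π e' a).1 ha⟩
  · rintro ⟨e, he, ha⟩
    exact ⟨slotEquiv π e, by
      rw [act, Finset.mem_map]
      exact ⟨e, he, rfl⟩, (mem_slotEquiv π e a).2 ha⟩













end Crest.Agent.R056.SymAvg
end

-- ▼ part R056/Sym
section

/-! Row 56: use of the symmetry. OWNER: helper406. -/

set_option autoImplicit false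
set_option linter.unusedSectionVars false

namespace Crest.Agent.R056

open Finset Crest.FinProb Crest.CombinatoricsR.HypergraphCube

section General

variable {ι : Type*} [Fintype ι] [DecidableEq ι] {p δ : ℝ}

theorem Ex_comp_equiv (τ : ι ≃ ι) (g : (ι → Bool) → ℝ) :
    Ex p (fun x => g (x ∘ τ)) = Ex p g := by
  unfold Ex
  apply Fintype.sum_equiv (Equiv.arrowCongr τ.symm (Equiv.refl Bool))
  intro x
  have e1 : (Equiv.arrowCongr τ.symm (Equiv.refl Bool)) x = x ∘ τ := by
    funext i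
    simp [Equiv.arrowCongr]
  rw [e1]
  congr 1
  unfold bernoulliWeight
  symm
  apply Fintype.prod_equiv τ
  intro i
  simp

theorem Dx_comp_equiv (τ : ι ≃ ι) (g : (ι → Bool) → ℝ) (hg : ∀ x, g (x ∘ τ) = g x) (e : ι)
    (x : ι → Bool) : Dx (τ e) g x = Dx e g (x ∘ τ) := by
  unfold Dx
  have h : ∀ b, Function.update (x ∘ τ) e b = Function.update x (τ e) b ∘ τ := by
    intro b
    rw [Function.update_comp_equiv, Equiv.symm_apply_apply]
  rw [h, h, hg, hg]

theorem mix_comp_equiv (τ : ι ≃ ι) (J : Finset ι) (hJ : ∀ i, τ i ∈ J ↔ i ∈ J)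
    (hJ' : ∀ i, i ∉ J → τ i = i) (x y : ι → Bool) : mix J x y ∘ τ = mix J x (y ∘ τ) := by
  funext i
  simp only [Function.comp, mix]
  by_cases h : i ∈ J
  · rw [if_pos h, if_pos ((hJ i).2 h)]
  · rw [if_neg h, if_neg (fun h' => h ((hJ i).1 h')), hJ' i h]

theorem EJ_Dx_comp_equiv (τ : ι ≃ ι) (J : Finset ι) (hJ : ∀ i, τ i ∈ J ↔ i ∈ J)
    (hJ' : ∀ i, i ∉ J → τ i = i) (g : (ι → Bool) → ℝ) (hg : ∀ x, g (x ∘ τ) = g x) (e : ι)
    (x : ι → Bool) :
    EJ p J (fun y => Dx (τ e) g y ^ 2) x = EJ p J (fun y => Dx e g y ^ 2) x := by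
  unfold EJ
  rw [← Ex_comp_equiv τ (fun y => Dx e g (mix J x y) ^ 2)]
  congr 1
  funext y
  show Dx (τ e) g (mix J x y) ^ 2 = Dx e g (mix J x (y ∘ τ)) ^ 2
  rw [Dx_comp_equiv τ g hg, mix_comp_equiv τ J hJ hJ']

theorem chi_image (p : ℝ) (τ : ι ≃ ι) (S : Finset ι) (x : ι → Bool) :
    chi p (S.image τ) x = chi p S (x ∘ τ) := by
  unfold chi
  rw [Finset.prod_image (fun a _ b _ h => τ.injective h)]
  rfl

theorem hat_image (τ : ι ≃ ι) (g : (ι → Bool) → ℝ) (hg : ∀ x, g (x ∘ τ) = g x)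
    (S : Finset ι) : hat p g (S.image τ) = hat p g S := by
  unfold hat
  rw [← Ex_comp_equiv τ (fun ω => g ω * chi p S ω)]
  congr 1
  funext x
  rw [chi_image, hg]

end General

variable {n r : ℕ} {p δ : ℝ}

open SymAvg

theorem ind_comp_slotEquiv (f : (HyperedgeSlot n r → Bool) → Bool) (hf : IsSymmetric f)
    (σ : Equiv.Perm (Fin n)) (x : HyperedgeSlot n r → Bool) :
    ind f (x ∘ slotEquiv σ) = ind f x := by
  have h : x ∘ slotEquiv σ = relabel σ x := rfl
  unfold ind
  rw [h, hf σ x]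

theorem Tn_relabel (f : (HyperedgeSlot n r → Bool) → Bool) (hf : IsSymmetric f)
    (σ : Equiv.Perm (Fin n)) (x : HyperedgeSlot n r → Bool) :
    Tn p δ (ind f) (relabel σ x) = Tn p δ (ind f) x :=
  Tn_comp_equiv (slotEquiv σ) (ind f) (ind_comp_slotEquiv f hf σ) x

theorem mem_touch (A : Finset (Fin n)) (e : HyperedgeSlot n r) :
    e ∈ touch r A ↔ ∃ a ∈ A, a ∈ e.1 := by
  unfold touch
  rw [Finset.mem_filter, Finset.not_disjoint_iff]
  simp only [Finset.mem_univ, true_and]
  constructor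
  · rintro ⟨a, h1, h2⟩
    exact ⟨a, h2, h1⟩
  · rintro ⟨a, h1, h2⟩
    exact ⟨a, h2, h1⟩

theorem swap_mem_iff (A : Finset (Fin n)) (a a' : Fin n) (ha : a ∈ A) (ha' : a' ∈ A)
    (b : Fin n) : Equiv.swap a a' b ∈ A ↔ b ∈ A := by
  rcases eq_or_ne b a with rfl | h1
  · simp [ha, ha']
  rcases eq_or_ne b a' with rfl | h2
  · simp [ha, ha']
  rw [Equiv.swap_apply_of_ne_of_ne h1 h2]

/-- (2) of the paper proof: swap `a` with `a' ∈ A`; `touch r A` is invariant, slots outside are
fixed, the slots `e[a → a']` are distinct, and `grad_bound`. -/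
theorem sym_grad (hp0 : 0 < p) (hp1 : p < 1) (hδ0 : 0 < δ) (hδ1 : δ ≤ 1)
    (f : (HyperedgeSlot n r → Bool) → Bool) (hf : IsSymmetric f)
    (A : Finset (Fin n)) (a : Fin n) (e : HyperedgeSlot n r) (he : e.1 ∩ A = {a})
    (x : HyperedgeSlot n r → Bool) :
    (A.card : ℝ) * EJ p (touch r A) (fun y => Dx e (Tn p δ (ind f)) y ^ 2) x
      ≤ 1 / (δ * (p * (1 - p))) := by
  have hae : a ∈ e.1 ∩ A := by rw [he]; exact Finset.mem_singleton_self a
  have ha : a ∈ A := (Finset.mem_inter.1 hae).2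
  have ha_e : a ∈ e.1 := (Finset.mem_inter.1 hae).1
  set g : (HyperedgeSlot n r → Bool) → ℝ := Tn p δ (ind f) with hg
  have hgsym : ∀ (σ : Equiv.Perm (Fin n)) (y : HyperedgeSlot n r → Bool),
      g (y ∘ slotEquiv σ) = g y := by
    intro σ y
    exact Tn_relabel f hf σ y
  -- the invariance of the conditional second moment
  have key : ∀ a' ∈ A, EJ p (touch r A) (fun y => Dx (slotEquiv (Equiv.swap a a') e) g y ^ 2) x
      = EJ p (touch r A) (fun y => Dx e g y ^ 2) x := by
    intro a' ha'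
    apply EJ_Dx_comp_equiv (slotEquiv (Equiv.swap a a'))
    · intro i
      rw [mem_touch, mem_touch]
      constructor
      · rintro ⟨b, hb, hbi⟩
        refine ⟨Equiv.swap a a' b, (swap_mem_iff A a a' ha ha' b).2 hb, ?_⟩
        rw [← mem_slotEquiv (Equiv.swap a a')]
        simpa using hbi
      · rintro ⟨b, hb, hbi⟩
        exact ⟨Equiv.swap a a' b, (swap_mem_iff A a a' ha ha' b).2 hb,
          (mem_slotEquiv _ _ _).2 hbi⟩
    · intro i hi
      rw [mem_touch] at hi
      push Not at hi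
      apply Subtype.ext
      ext b
      have hb := mem_slotEquiv (Equiv.swap a a') i (Equiv.swap a a' b)
      rw [Equiv.swap_apply_self] at hb
      rw [hb]
      rcases eq_or_ne b a with rfl | h1
      · rw [Equiv.swap_apply_left]
        exact ⟨fun h => absurd h (hi a' ha'), fun h => absurd h (hi b ha)⟩
      rcases eq_or_ne b a' with rfl | h2
      · rw [Equiv.swap_apply_right]
        exact ⟨fun h => absurd h (hi a ha), fun h => absurd h (hi b ha')⟩
      rw [Equiv.swap_apply_of_ne_of_ne h1 h2]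
    · exact hgsym _
  -- distinctness
  have hinj : Set.InjOn (fun a' => slotEquiv (Equiv.swap a a') e) (A : Set (Fin n)) := by
    have hchar : ∀ a' ∈ A, ∀ b ∈ A, b ∈ (slotEquiv (Equiv.swap a a') e).1 → b = a' := by
      intro a' ha' b hb hbe
      have h1 := mem_slotEquiv (Equiv.swap a a') e (Equiv.swap a a' b)
      rw [Equiv.swap_apply_self] at h1
      have h2 : Equiv.swap a a' b ∈ e.1 ∩ A :=
        Finset.mem_inter.2 ⟨h1.1 hbe, (swap_mem_iff A a a' ha ha' b).2 hb⟩
      rw [he, Finset.mem_singleton] at h2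
      have h3 := congrArg (Equiv.swap a a') h2
      rw [Equiv.swap_apply_self, Equiv.swap_apply_left] at h3
      exact h3
    intro a1 h1 a2 h2 h12
    simp only at h12
    have h3 : a1 ∈ (slotEquiv (Equiv.swap a a1) e).1 := by
      have := (mem_slotEquiv (Equiv.swap a a1) e a).2 ha_e
      rwa [Equiv.swap_apply_left] at this
    rw [h12] at h3
    exact hchar a2 (Finset.mem_coe.1 h2) a1 (Finset.mem_coe.1 h1) h3
  have hbound : ∀ y, ∑ a' ∈ A, Dx (slotEquiv (Equiv.swap a a') e) g y ^ 2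
      ≤ 1 / (δ * (p * (1 - p))) := by
    intro y
    have h1 : ∑ a' ∈ A, Dx (slotEquiv (Equiv.swap a a') e) g y ^ 2
        = ∑ e' ∈ A.image (fun a' => slotEquiv (Equiv.swap a a') e), Dx e' g y ^ 2 := by
      rw [Finset.sum_image hinj]
    rw [h1]
    refine (Finset.sum_le_univ_sum_of_nonneg (fun e' => sq_nonneg _)).trans ?_
    apply grad_bound hp0 hp1 hδ0 hδ1
    intro ω
    unfold ind
    split_ifs <;> simp
  have hsum : (A.card : ℝ) * EJ p (touch r A) (fun y => Dx e g y ^ 2) x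
      = EJ p (touch r A)
          (fun y => ∑ a' ∈ A, Dx (slotEquiv (Equiv.swap a a') e) g y ^ 2) x := by
    have h1 : EJ p (touch r A)
          (fun y => ∑ a' ∈ A, Dx (slotEquiv (Equiv.swap a a') e) g y ^ 2) x
        = ∑ a' ∈ A, EJ p (touch r A)
            (fun y => Dx (slotEquiv (Equiv.swap a a') e) g y ^ 2) x := by
      unfold EJ
      exact Ex_sum A (fun a' y =>
        Dx (slotEquiv (Equiv.swap a a') e) g (mix (touch r A) x y) ^ 2)
    rw [h1, Finset.sum_congr rfl key, Finset.sum_const, nsmul_eq_mul]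
  rw [hsum]
  have h2 := EJ_mono hp0.le hp1.le (touch r A) hbound x
  refine h2.trans (le_of_eq ?_)
  unfold EJ
  have h3 : (fun _ : HyperedgeSlot n r → Bool => 1 / (δ * (p * (1 - p))))
      = fun ω => (1 / (δ * (p * (1 - p)))) * (fun _ : HyperedgeSlot n r → Bool => (1 : ℝ)) ω := by
    funext ω
    simp
  rw [h3, Ex_const_mul, Ex_one, mul_one]

/-- Fourier masses of a symmetric function are invariant. -/
theorem mass_image_relabelSlot (f : (HyperedgeSlot n r → Bool) → Bool) (hf : IsSymmetric f)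
    (σ : Equiv.Perm (Fin n)) (S : Finset (HyperedgeSlot n r)) :
    mass p f (S.image (relabelSlot σ)) = mass p f S := by
  unfold mass
  have h : S.image (relabelSlot σ) = S.image (slotEquiv σ) := rfl
  rw [h, hat_image (slotEquiv σ) (ind f) (ind_comp_slotEquiv f hf σ)]

theorem exists_perm_pair (a a' b b' : Fin n) (haa : a ≠ a') (hbb : b ≠ b') :
    ∃ σ : Equiv.Perm (Fin n), σ a = b ∧ σ a' = b' := by
  refine ⟨Equiv.swap (Equiv.swap a b a') b' * Equiv.swap a b, ?_, ?_⟩
  · rw [Equiv.Perm.mul_apply, Equiv.swap_apply_left]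
    apply Equiv.swap_apply_of_ne_of_ne
    · intro h
      have h2 := congrArg (Equiv.swap a b) h
      rw [Equiv.swap_apply_right, Equiv.swap_apply_self] at h2
      exact haa h2
    · exact hbb
  · rw [Equiv.Perm.mul_apply, Equiv.swap_apply_left]

theorem mem_verts_act (σ : Equiv.Perm (Fin n)) (S : Finset (HyperedgeSlot n r)) (a : Fin n) :
    σ a ∈ verts (S.image (relabelSlot σ)) ↔ a ∈ verts S := by
  have h : S.image (relabelSlot σ) = act σ S := by
    unfold act
    rw [Finset.map_eq_image]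
    rfl
  rw [h]
  exact mem_vts_act σ S a

/-- the transported sum over sets covering a pair of vertices. -/
theorem pair_sum_eq (f : (HyperedgeSlot n r → Bool) → Bool) (hf : IsSymmetric f)
    (w : ℕ → ℝ) (σ : Equiv.Perm (Fin n)) (a a' : Fin n) :
    ∑ S ∈ (univ : Finset (Finset (HyperedgeSlot n r))).filter
        (fun S => a ∈ verts S ∧ a' ∈ verts S), w S.card * mass p f S
      = ∑ S ∈ (univ : Finset (Finset (HyperedgeSlot n r))).filter
        (fun S => σ a ∈ verts S ∧ σ a' ∈ verts S), w S.card * mass p f S := by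
  rw [Finset.sum_filter, Finset.sum_filter]
  apply Fintype.sum_equiv ((slotEquiv σ).finsetCongr)
  intro S
  have e1 : (slotEquiv σ).finsetCongr S = S.image (relabelSlot σ) := by
    rw [Equiv.finsetCongr_apply, Finset.map_eq_image]
    rfl
  have hcard : (S.image (relabelSlot σ)).card = S.card :=
    Finset.card_image_of_injective S (slotEquiv σ).injective
  rw [e1, hcard, mass_image_relabelSlot f hf]
  simp only [mem_verts_act]

/-- Pair symmetry: the weighted mass of the sets covering two given vertices. -/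
theorem pair_mass (f : (HyperedgeSlot n r → Bool) → Bool) (hf : IsSymmetric f)
    (w : ℕ → ℝ) (a a' : Fin n) (haa : a ≠ a') :
    (n : ℝ) * (n - 1) * (∑ S ∈ (univ : Finset (Finset (HyperedgeSlot n r))).filter
        (fun S => a ∈ verts S ∧ a' ∈ verts S), w S.card * mass p f S)
      = ∑ S : Finset (HyperedgeSlot n r),
        ((verts S).card : ℝ) * ((verts S).card - 1) * (w S.card * mass p f S) := by
  set P : ℝ := ∑ S ∈ (univ : Finset (Finset (HyperedgeSlot n r))).filter
        (fun S => a ∈ verts S ∧ a' ∈ verts S), w S.card * mass p f S with hP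
  have hall : ∀ b b' : Fin n, b ≠ b' →
      ∑ S ∈ (univ : Finset (Finset (HyperedgeSlot n r))).filter
        (fun S => b ∈ verts S ∧ b' ∈ verts S), w S.card * mass p f S = P := by
    intro b b' hbb
    obtain ⟨σ, h1, h2⟩ := exists_perm_pair a a' b b' haa hbb
    rw [hP, pair_sum_eq f hf w σ a a', h1, h2]
  have hoff : ∀ U : Finset (Fin n),
      (U.offDiag.card : ℝ) = (U.card : ℝ) * ((U.card : ℝ) - 1) := by
    intro U
    rw [Finset.offDiag_card]
    have : U.card ≤ U.card * U.card := Nat.le_mul_self _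
    rw [Nat.cast_sub this]
    push_cast
    ring
  have h1 : ∑ q ∈ (univ : Finset (Fin n)).offDiag,
      ∑ S ∈ (univ : Finset (Finset (HyperedgeSlot n r))).filter
        (fun S => q.1 ∈ verts S ∧ q.2 ∈ verts S), w S.card * mass p f S
      = (n : ℝ) * (n - 1) * P := by
    have h2 : ∀ q ∈ (univ : Finset (Fin n)).offDiag,
        ∑ S ∈ (univ : Finset (Finset (HyperedgeSlot n r))).filter
        (fun S => q.1 ∈ verts S ∧ q.2 ∈ verts S), w S.card * mass p f S = P := by
      intro q hq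
      exact hall q.1 q.2 (Finset.mem_offDiag.1 hq).2.2
    rw [Finset.sum_congr rfl h2, Finset.sum_const, nsmul_eq_mul, hoff]
    simp
  rw [← h1]
  simp_rw [Finset.sum_filter]
  rw [Finset.sum_comm]
  apply Finset.sum_congr rfl
  intro S _
  rw [← Finset.sum_filter]
  have h3 : ((univ : Finset (Fin n)).offDiag.filter
      (fun q => q.1 ∈ verts S ∧ q.2 ∈ verts S)) = (verts S).offDiag := by
    ext q
    simp only [Finset.mem_filter, Finset.mem_offDiag, Finset.mem_univ, true_and]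
    tauto
  rw [h3, Finset.sum_const, nsmul_eq_mul, hoff]

end Crest.Agent.R056
end

-- ▼ part R056/Comb
section

/-! Row 56: combinatorics and numerics. OWNER: helper990. -/

set_option autoImplicit false

namespace Crest.Agent.R056

open Finset Crest.CombinatoricsR.HypergraphCube

variable {n r : ℕ}

theorem sum_degS (S : Finset (HyperedgeSlot n r)) : ∑ a, degS S a = r * S.card := by
  have h1 : ∀ a, degS S a = ∑ e ∈ S, if a ∈ e.1 then 1 else 0 := by
    intro a
    rw [degS, Finset.card_filter]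
  simp_rw [h1]
  rw [Finset.sum_comm]
  have h2 : ∀ e ∈ S, (∑ a : Fin n, if a ∈ e.1 then 1 else 0) = r := by
    intro e _
    rw [← Finset.card_filter]
    have : (univ.filter fun a : Fin n => a ∈ e.1) = e.1 := by ext; simp
    rw [this, e.2]
  rw [Finset.sum_congr rfl h2]
  simp [mul_comm]

theorem degS_eq_zero {S : Finset (HyperedgeSlot n r)} {a : Fin n} (ha : a ∉ verts S) :
    degS S a = 0 := by
  rw [degS, Finset.card_eq_zero, Finset.filter_eq_empty_iff]
  intro e he hae
  exact ha (by rw [verts, Finset.mem_biUnion]; exact ⟨e, he, hae⟩)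

theorem card_verts_le (S : Finset (HyperedgeSlot n r)) : (verts S).card ≤ r * S.card := by
  rw [verts]
  refine (Finset.card_biUnion_le).trans ?_
  rw [Finset.sum_congr rfl (fun e _ => e.2)]
  simp [mul_comm]

theorem degS_le_pow (S : Finset (HyperedgeSlot n r)) (a : Fin n) :
    degS S a ≤ (verts S).card ^ (r - 1) := by
  by_cases ha : a ∈ verts S
  · have h1 : (S.filter (fun e => a ∈ e.1)).card ≤
        (((verts S).erase a).powersetCard (r - 1)).card := by
      apply Finset.card_le_card_of_injOn (fun e => e.1.erase a)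
      · intro e he
        simp only [Finset.coe_filter, Set.mem_setOf_eq] at he
        rw [Finset.mem_coe, Finset.mem_powersetCard]
        refine ⟨?_, ?_⟩
        · apply Finset.erase_subset_erase
          intro x hx
          rw [verts, Finset.mem_biUnion]
          exact ⟨e, he.1, hx⟩
        · rw [Finset.card_erase_of_mem he.2, e.2]
      · intro e he e' he' hee
        simp only [Finset.coe_filter, Set.mem_setOf_eq] at he he'
        apply Subtype.ext
        have := congrArg (insert a) hee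
        simpa [Finset.insert_erase he.2, Finset.insert_erase he'.2] using this
    rw [Finset.card_powersetCard, Finset.card_erase_of_mem ha] at h1
    calc degS S a ≤ ((verts S).card - 1).choose (r - 1) := h1
      _ ≤ ((verts S).card - 1) ^ (r - 1) := Nat.choose_le_pow _ _
      _ ≤ (verts S).card ^ (r - 1) := Nat.pow_le_pow_left (Nat.sub_le _ _) _
  · rw [degS_eq_zero ha]; exact Nat.zero_le _

/-- If every covered vertex has degree at least `s + 1` then `(s+1)^r ≤ (r|S|)^(r-1)`.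
Proof: `v = |verts S|`: `v (s+1) ≤ r|S|` and `s + 1 ≤ C(v-1, r-1) ≤ v^(r-1)`. -/
theorem comb_degree (hr : 2 ≤ r) (S : Finset (HyperedgeSlot n r)) (hS : S.Nonempty) (s : ℕ)
    (h : ∀ a ∈ verts S, s + 1 ≤ degS S a) : (s + 1) ^ r ≤ (r * S.card) ^ (r - 1) := by
  obtain ⟨e, he⟩ := hS
  have hne : e.1.Nonempty := by
    rw [← Finset.card_pos, e.2]; omega
  obtain ⟨a, ha⟩ := hne
  have hav : a ∈ verts S := by
    rw [verts, Finset.mem_biUnion]; exact ⟨e, he, ha⟩
  have h1 : s + 1 ≤ (verts S).card ^ (r - 1) := (h a hav).trans (degS_le_pow S a)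
  have h2 : (verts S).card * (s + 1) ≤ r * S.card := by
    rw [← sum_degS]
    calc (verts S).card * (s + 1) = ∑ _a ∈ verts S, (s + 1) := by
          rw [Finset.sum_const, smul_eq_mul]
      _ ≤ ∑ a ∈ verts S, degS S a := Finset.sum_le_sum h
      _ ≤ ∑ a, degS S a := Finset.sum_le_sum_of_subset (Finset.subset_univ _)
  obtain ⟨k, rfl⟩ : ∃ k, r = k + 1 := ⟨r - 1, by omega⟩
  simp only [Nat.add_sub_cancel] at h1 ⊢
  calc (s + 1) ^ (k + 1) = (s + 1) * (s + 1) ^ k := by ring
    _ ≤ (verts S).card ^ k * (s + 1) ^ k := Nat.mul_le_mul_right _ h1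
    _ = ((verts S).card * (s + 1)) ^ k := by rw [mul_pow]
    _ ≤ ((k + 1) * S.card) ^ k := Nat.pow_le_pow_left h2 k

/-- Real-exponent form. -/
theorem comb_degree_rpow (hr : 2 ≤ r) (S : Finset (HyperedgeSlot n r)) (hS : S.Nonempty)
    (s : ℕ) (h : ∀ a ∈ verts S, s + 1 ≤ degS S a) :
    ((s : ℝ) + 1) ^ ((r : ℝ) / ((r : ℝ) - 1)) ≤ r * S.card := by
  have h1 := comb_degree hr S hS s h
  have hr' : (2 : ℝ) ≤ r := by exact_mod_cast hr
  have hr1 : (0 : ℝ) < (r : ℝ) - 1 := by linarith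
  have h2 : ((s : ℝ) + 1) ^ (r : ℝ) ≤ ((r : ℝ) * S.card) ^ ((r : ℝ) - 1) := by
    have h3 : (((s + 1) ^ r : ℕ) : ℝ) ≤ (((r * S.card) ^ (r - 1) : ℕ) : ℝ) := by
      exact_mod_cast h1
    push_cast at h3
    rw [Real.rpow_natCast]
    have h4 : ((r : ℝ) - 1) = ((r - 1 : ℕ) : ℝ) := by
      rw [Nat.cast_sub (by omega)]; simp
    rw [h4, Real.rpow_natCast]
    exact h3
  have h0 : (0 : ℝ) ≤ (r : ℝ) * S.card := by positivity
  calc ((s : ℝ) + 1) ^ ((r : ℝ) / ((r : ℝ) - 1))
      = (((s : ℝ) + 1) ^ (r : ℝ)) ^ (1 / ((r : ℝ) - 1)) := by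
        rw [← Real.rpow_mul (by positivity)]; congr 1; ring
    _ ≤ (((r : ℝ) * S.card) ^ ((r : ℝ) - 1)) ^ (1 / ((r : ℝ) - 1)) := by
        apply Real.rpow_le_rpow (by positivity) h2 (by positivity)
    _ = r * S.card := by
        rw [← Real.rpow_mul h0, mul_one_div_cancel hr1.ne', Real.rpow_one]

/-- `x ^ 4 ≤ 24 * exp x` for `x ≥ 0`. -/
theorem pow_four_le_exp {x : ℝ} (hx : 0 ≤ x) : x ^ 4 ≤ 24 * Real.exp x := by
  have h := Real.pow_div_factorial_le_exp x hx 4
  have : ((4 : ℕ).factorial : ℝ) = 24 := by norm_num [Nat.factorial]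
  rw [this] at h
  rw [div_le_iff₀ (by norm_num)] at h
  linarith

theorem pow_four_mul_exp_neg_le {L : ℝ} (hL : 0 ≤ L) :
    L ^ 4 * Real.exp (-(15 / 64 * L)) ≤ 7960 := by
  have h4 := pow_four_le_exp (x := 15 / 64 * L) (by positivity)
  rw [Real.exp_neg, ← div_eq_mul_inv, div_le_iff₀ (Real.exp_pos _)]
  have h8 : (15 / 64 * L) ^ 4 = (15 / 64 : ℝ) ^ 4 * L ^ 4 := by ring
  rw [h8] at h4
  have h9 := Real.exp_pos (15 / 64 * L)
  have h10 : L ^ 4 ≤ (24 / (15 / 64 : ℝ) ^ 4) * Real.exp (15 / 64 * L) := by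
    rw [div_mul_eq_mul_div, le_div_iff₀ (by positivity)]
    linarith
  have h11 : (24 / (15 / 64 : ℝ) ^ 4) ≤ 7960 := by norm_num
  calc L ^ 4 ≤ _ := h10
    _ ≤ 7960 * Real.exp (15 / 64 * L) := by gcongr

/-- Numerics (7). `lam = p(1-p)`, `K = lam I / W`, `δ = 1/(4K)`, `s = ⌊2^-7 L √lam⌋`,
`m = ⌊√n⌋`. -/
theorem numerics (r n : ℕ) (hr : 2 ≤ r) (hrn : r ≤ n) (lam K : ℝ) (hl0 : 0 < lam)
    (hl1 : lam ≤ 1 / 4) (hK1 : 1 ≤ K)
    (hK : K * (2 ^ 16 * r) < lam * Real.log n ^ ((r : ℝ) / ((r : ℝ) - 1))) :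
    (r : ℝ) * K * Real.sqrt (4 / lam) ^ ⌊Real.log n * Real.sqrt lam / 2 ^ 7⌋₊
          / Real.sqrt (lam * (Nat.sqrt n : ℝ) / (4 * K))
        + (Nat.sqrt n : ℝ) / n * r ^ 2 * K ^ 2 ≤ 1 / 4
      ∧ 4 * r * K < ((⌊Real.log n * Real.sqrt lam / 2 ^ 7⌋₊ : ℝ) + 1)
          ^ ((r : ℝ) / ((r : ℝ) - 1)) := by
  have hr' : (2 : ℝ) ≤ r := by exact_mod_cast hr
  have hn2 : 2 ≤ n := hr.trans hrn
  have hn' : (2 : ℝ) ≤ n := by exact_mod_cast hn2
  have hr0 : (0 : ℝ) < r := by linarith
  have hr1 : (0 : ℝ) < (r : ℝ) - 1 := by linarith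
  set ρ : ℝ := (r : ℝ) / ((r : ℝ) - 1) with hρ
  have hρ0 : 0 < ρ := div_pos hr0 hr1
  have hρ2 : ρ ≤ 2 := by rw [hρ, div_le_iff₀ hr1]; linarith
  set L : ℝ := Real.log n with hL
  have hL0 : 0 < L := Real.log_pos (by linarith)
  have hLρ : 0 < L ^ ρ := Real.rpow_pos_of_pos hL0 _
  have hK0 : 0 < K := by linarith
  -- `L` is large
  have hLpow : 2 ^ 16 * r < lam * L ^ ρ := by
    have : 2 ^ 16 * (r : ℝ) ≤ K * (2 ^ 16 * r) := by
      have h0 : (0 : ℝ) ≤ 2 ^ 16 * r := by positivity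
      nlinarith
    linarith
  have hL1 : 1 ≤ L := by
    by_contra hlt
    push Not at hlt
    have h1 : L ^ ρ ≤ 1 := Real.rpow_le_one hL0.le hlt.le hρ0.le
    have h2 : lam * L ^ ρ ≤ 1 / 4 * 1 := mul_le_mul hl1 h1 hLρ.le (by norm_num)
    linarith
  have hLρ2 : L ^ ρ ≤ L ^ 2 := by
    rw [← Real.rpow_natCast L 2]
    exact Real.rpow_le_rpow_of_exponent_le hL1 (by exact_mod_cast hρ2)
  have hpqL' : (2 : ℝ) ^ 17 ≤ lam * L ^ 2 := by
    have h1 : lam * L ^ ρ ≤ lam * L ^ 2 := mul_le_mul_of_nonneg_left hLρ2 hl0.le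
    linarith
  -- bounds on K
  have hrK : r * K ≤ L ^ 2 / 2 ^ 18 := by
    have h2 : lam * L ^ ρ ≤ 1 / 4 * L ^ 2 := by
      apply mul_le_mul hl1 hLρ2 hLρ.le (by norm_num)
    rw [le_div_iff₀ (by positivity)]
    have h3 : (r : ℝ) * K * 2 ^ 18 = 4 * (K * (2 ^ 16 * r)) := by ring
    rw [h3]; linarith
  have hK2 : K ≤ L ^ 2 / 2 ^ 19 := by
    have h1 : 2 * K ≤ r * K := mul_le_mul_of_nonneg_right hr' hK0.le
    have h2 : L ^ 2 / 2 ^ 19 = (L ^ 2 / 2 ^ 18) / 2 := by ring
    rw [h2]; linarith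
  set sg : ℝ := Real.sqrt lam with hsg
  have hsg0 : 0 < sg := Real.sqrt_pos.mpr hl0
  have hsgsq : sg ^ 2 = lam := Real.sq_sqrt hl0.le
  have hsg1 : sg ≤ 1 / 2 := by
    rw [hsg, Real.sqrt_le_left (by norm_num)]; linarith
  have h4lam : Real.sqrt (4 / lam) = 2 / sg := by
    rw [Real.sqrt_div' _ hl0.le, hsg]
    congr 1
    rw [show (4 : ℝ) = 2 ^ 2 by norm_num, Real.sqrt_sq (by norm_num)]
  set s : ℕ := ⌊L * sg / 2 ^ 7⌋₊ with hs
  have hs1 : (s : ℝ) ≤ L * sg / 2 ^ 7 := Nat.floor_le (by positivity)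
  have hs2 : L * sg / 2 ^ 7 < (s : ℝ) + 1 := Nat.lt_floor_add_one _
  set m : ℕ := Nat.sqrt n with hm
  have hmsq : m * m ≤ n := Nat.sqrt_le n
  have hmsq2 : n < (m + 1) * (m + 1) := Nat.lt_succ_sqrt n
  have hm1 : 1 ≤ m := by
    rw [hm, Nat.le_sqrt]; omega
  have hm1' : (1 : ℝ) ≤ m := by exact_mod_cast hm1
  have hm0 : (0 : ℝ) < m := by linarith
  have hnexp : (n : ℝ) = Real.exp L := by rw [hL, Real.exp_log (by linarith)]
  have hE : Real.exp (L / 2) * Real.exp (L / 2) = n := by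
    rw [← Real.exp_add, hnexp]; congr 1; ring
  have hmle : (m : ℝ) ≤ Real.exp (L / 2) := by
    have h1 : (m : ℝ) * m ≤ Real.exp (L / 2) * Real.exp (L / 2) := by
      rw [hE]; exact_mod_cast hmsq
    by_contra hlt
    push Not at hlt
    have h2 : Real.exp (L / 2) * Real.exp (L / 2) < m * m :=
      mul_lt_mul'' hlt hlt (Real.exp_pos _).le (Real.exp_pos _).le
    linarith
  have hmlow : Real.exp (L / 2) / 2 ≤ m := by
    have h1 : Real.exp (L / 2) * Real.exp (L / 2) < ((m : ℝ) + 1) * (m + 1) := by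
      rw [hE]; exact_mod_cast hmsq2
    have h2 : Real.exp (L / 2) < m + 1 := by
      by_contra hge
      push Not at hge
      have h3 : ((m : ℝ) + 1) * (m + 1) ≤ Real.exp (L / 2) * Real.exp (L / 2) :=
        mul_le_mul hge hge (by positivity) (Real.exp_pos _).le
      linarith
    linarith
  have hexp64 : (2 / sg) ^ s ≤ Real.exp (L / 64) := by
    have h1 : 2 / sg ≤ Real.exp (2 / sg) := by
      have := Real.add_one_le_exp (2 / sg); linarith
    calc (2 / sg) ^ s ≤ (Real.exp (2 / sg)) ^ s := pow_le_pow_left₀ (by positivity) h1 s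
      _ = Real.exp (s * (2 / sg)) := by rw [← Real.exp_nat_mul]
      _ ≤ Real.exp (L / 64) := by
          apply Real.exp_le_exp.mpr
          calc (s : ℝ) * (2 / sg) ≤ (L * sg / 2 ^ 7) * (2 / sg) :=
                mul_le_mul_of_nonneg_right hs1 (by positivity)
            _ = L / 64 := by field_simp; norm_num
  have hT1 : (r : ℝ) * K * (2 / sg) ^ s / Real.sqrt (lam * m / (4 * K)) ≤ 1 / 8 := by
    have hden : sg * Real.exp (L / 4) / (3 * Real.sqrt K) ≤ Real.sqrt (lam * m / (4 * K)) := by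
      apply Real.le_sqrt_of_sq_le
      have hKsq : Real.sqrt K ^ 2 = K := Real.sq_sqrt hK0.le
      have e1 : (sg * Real.exp (L / 4) / (3 * Real.sqrt K)) ^ 2
          = lam * Real.exp (L / 2) / (9 * K) := by
        have e0 : ((2 : ℕ) : ℝ) * (L / 4) = L / 2 := by push_cast; ring
        rw [div_pow, mul_pow, mul_pow, hKsq, hsgsq, ← Real.exp_nat_mul, e0]
        norm_num
      rw [e1, div_le_div_iff₀ (by positivity) (by positivity)]
      calc lam * Real.exp (L / 2) * (4 * K) = (lam * K) * (8 * (Real.exp (L / 2) / 2)) := by ring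
        _ ≤ (lam * K) * (8 * m) := by gcongr
        _ ≤ (lam * K) * (9 * m) := by gcongr; norm_num
        _ = lam * m * (9 * K) := by ring
    have hden0 : 0 < sg * Real.exp (L / 4) / (3 * Real.sqrt K) := by positivity
    have hnum0 : 0 ≤ (r : ℝ) * K * (2 / sg) ^ s := by positivity
    calc (r : ℝ) * K * (2 / sg) ^ s / Real.sqrt (lam * m / (4 * K))
        ≤ (r : ℝ) * K * (2 / sg) ^ s / (sg * Real.exp (L / 4) / (3 * Real.sqrt K)) :=
          div_le_div_of_nonneg_left hnum0 hden0 hden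
      _ = (3 * (r * K) * (Real.sqrt K / sg)) * ((2 / sg) ^ s * Real.exp (-(L / 4))) := by
          rw [Real.exp_neg]
          field_simp
      _ ≤ (3 * (L ^ 2 / 2 ^ 18) * (L ^ 2 / 2 ^ 18)) *
            (Real.exp (L / 64) * Real.exp (-(L / 4))) := by
          have hKs : Real.sqrt K / sg ≤ L ^ 2 / 2 ^ 18 := by
            rw [div_le_iff₀ hsg0]
            apply Real.sqrt_le_iff.mpr
            refine ⟨by positivity, ?_⟩
            calc K ≤ L ^ 2 / 2 ^ 19 := hK2
              _ = L ^ 2 * 2 ^ 17 / 2 ^ 36 := by ring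
              _ ≤ L ^ 2 * (lam * L ^ 2) / 2 ^ 36 := by
                  apply div_le_div_of_nonneg_right _ (by positivity)
                  exact mul_le_mul_of_nonneg_left hpqL' (by positivity)
              _ = (L ^ 2 / 2 ^ 18 * sg) ^ 2 := by rw [mul_pow, hsgsq]; ring
          gcongr
      _ = (L ^ 4 * Real.exp (-(15 / 64 * L))) * (3 / 2 ^ 36) := by
          rw [← Real.exp_add]
          have : L / 64 + -(L / 4) = -(15 / 64 * L) := by ring
          rw [this]; ring
      _ ≤ 7960 * (3 / 2 ^ 36) := by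
          have h5 := pow_four_mul_exp_neg_le hL0.le
          gcongr
      _ ≤ 1 / 8 := by norm_num
  have hT2 : (m : ℝ) / n * r ^ 2 * K ^ 2 ≤ 1 / 8 := by
    have h1 : (m : ℝ) / n ≤ Real.exp (-(L / 2)) := by
      rw [div_le_iff₀ (by linarith)]
      calc (m : ℝ) ≤ Real.exp (L / 2) := hmle
        _ = Real.exp (-(L / 2)) * n := by
            rw [hnexp, ← Real.exp_add]; congr 1; ring
    have h2 : (r * K) ^ 2 ≤ (L ^ 2 / 2 ^ 18) ^ 2 := pow_le_pow_left₀ (by positivity) hrK 2
    have h3 : L ^ 4 * Real.exp (-(L / 2)) ≤ 384 := by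
      have h4 := pow_four_le_exp (x := L / 2) (by positivity)
      rw [Real.exp_neg, ← div_eq_mul_inv, div_le_iff₀ (Real.exp_pos _)]
      have h8 : (L / 2) ^ 4 = L ^ 4 / 16 := by ring
      rw [h8] at h4
      linarith
    calc (m : ℝ) / n * r ^ 2 * K ^ 2 = (m : ℝ) / n * (r * K) ^ 2 := by ring
      _ ≤ Real.exp (-(L / 2)) * (L ^ 2 / 2 ^ 18) ^ 2 := by gcongr
      _ = (L ^ 4 * Real.exp (-(L / 2))) * (1 / 2 ^ 36) := by ring
      _ ≤ 384 * (1 / 2 ^ 36) := by gcongr
      _ ≤ 1 / 8 := by norm_num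
  refine ⟨?_, ?_⟩
  · rw [h4lam]; linarith
  · have hlt : 4 * r * K < lam * L ^ ρ / 2 ^ 14 := by
      rw [lt_div_iff₀ (by positivity)]
      calc 4 * r * K * 2 ^ 14 = K * (2 ^ 16 * r) := by ring
        _ < lam * L ^ ρ := hK
    refine lt_of_lt_of_le hlt ?_
    have h1 : (L * sg / 2 ^ 7) ^ ρ ≤ ((s : ℝ) + 1) ^ ρ :=
      Real.rpow_le_rpow (by positivity) hs2.le hρ0.le
    have h2 : (L * sg / 2 ^ 7) ^ ρ = L ^ ρ * (sg / 2 ^ 7) ^ ρ := by
      rw [mul_div_assoc, Real.mul_rpow hL0.le (by positivity)]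
    have h3 : (sg / 2 ^ 7) ^ (2 : ℝ) ≤ (sg / 2 ^ 7) ^ ρ := by
      apply Real.rpow_le_rpow_of_exponent_ge (by positivity) _ hρ2
      rw [div_le_one (by positivity)]; linarith
    have h4 : (sg / 2 ^ 7) ^ (2 : ℝ) = lam / 2 ^ 14 := by
      rw [Real.rpow_two, div_pow, hsgsq]; norm_num
    rw [h4] at h3
    calc lam * L ^ ρ / 2 ^ 14 = L ^ ρ * (lam / 2 ^ 14) := by ring
      _ ≤ L ^ ρ * (sg / 2 ^ 7) ^ ρ := by gcongr
      _ ≤ _ := by rw [← h2]; exact h1

end Crest.Agent.R056
end

-- ▼ part R056/Final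

/-! Row 56: assembly. OWNER: helper56. -/

set_option autoImplicit false
set_option linter.unusedSectionVars false

namespace Crest.Agent.R056

open Finset Crest.FinProb Crest.CombinatoricsR.HypergraphCube

variable {n r : ℕ} {p δ : ℝ}

/-- Elementary: `k (1-δ)^(2k) ≤ 1/(4δ)`. -/
theorem card_mul_pow_le (hδ0 : 0 < δ) (hδ1 : δ ≤ 1) (k : ℕ) :
    (k : ℝ) * (1 - δ) ^ (2 * k) ≤ 1 / (4 * δ) := by
  have h1 : (1 - δ) ^ (2 * k) ≤ Real.exp (-(2 * k * δ)) := by
    have h0 : (0 : ℝ) ≤ 1 - δ := by linarith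
    have h2 : 1 - δ ≤ Real.exp (-δ) := by
      have := Real.add_one_le_exp (-δ); linarith
    calc (1 - δ) ^ (2 * k) ≤ Real.exp (-δ) ^ (2 * k) := pow_le_pow_left₀ h0 h2 _
      _ = Real.exp (-(2 * k * δ)) := by
        rw [← Real.exp_nat_mul]; congr 1; push_cast; ring
  have h3 : 2 * (2 * k * δ) ≤ Real.exp (2 * k * δ) := by
    have hx : (0 : ℝ) ≤ 2 * k * δ := by positivity
    have := Real.quadratic_le_exp_of_nonneg hx
    nlinarith [sq_nonneg (2 * k * δ - 1)]
  have hE : 0 < Real.exp (2 * k * δ) := Real.exp_pos _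
  have h4 : (k : ℝ) * Real.exp (-(2 * k * δ)) ≤ 1 / (4 * δ) := by
    rw [Real.exp_neg, le_div_iff₀ (by positivity)]
    have : (k : ℝ) * (Real.exp (2 * k * δ))⁻¹ * (4 * δ)
        = (2 * (2 * k * δ)) / Real.exp (2 * k * δ) := by
      field_simp
      ring
    rw [this, div_le_one hE]
    exact h3
  exact (mul_le_mul_of_nonneg_left h1 (Nat.cast_nonneg k)).trans h4

theorem touch_union (A B : Finset (Fin n)) : touch r A ∪ touch r B = touch r (A ∪ B) := by
  ext e
  simp only [touch, mem_union, mem_filter, mem_univ, true_and, disjoint_union_right]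
  tauto

theorem disjoint_touch_iff (S : Finset (HyperedgeSlot n r)) (A : Finset (Fin n)) :
    Disjoint S (touch r A) ↔ Disjoint (verts S) A := by
  unfold verts touch
  rw [Finset.disjoint_biUnion_left, Finset.disjoint_left]
  refine forall₂_congr fun e he => ?_
  simp

theorem inter_touch_singleton (S : Finset (HyperedgeSlot n r)) (a : Fin n) :
    (S ∩ touch r {a}).card = degS S a := by
  unfold degS touch
  congr 1
  ext e
  simp

theorem degS_pos_iff (S : Finset (HyperedgeSlot n r)) (a : Fin n) :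
    1 ≤ degS S a ↔ a ∈ verts S := by
  unfold degS verts
  rw [Nat.one_le_iff_ne_zero, ← Nat.pos_iff_ne_zero, Finset.card_pos, Finset.mem_biUnion]
  constructor
  · rintro ⟨e, he⟩
    rw [mem_filter] at he
    exact ⟨e, he.1, he.2⟩
  · rintro ⟨e, he, ha⟩
    exact ⟨e, by rw [mem_filter]; exact ⟨he, ha⟩⟩

theorem sum_le_sum_cover {α β : Type*} [Fintype α] (s : Finset α) (t : Finset β)
    (R : β → α → Prop) [∀ y, DecidablePred (R y)] (w : α → ℝ) (hw : ∀ x, 0 ≤ w x)
    (h : ∀ x ∈ s, ∃ y ∈ t, R y x) :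
    ∑ x ∈ s, w x ≤ ∑ y ∈ t, ∑ x ∈ (univ : Finset α).filter (R y), w x := by
  classical
  have h1 : ∀ x ∈ s, w x ≤ ∑ y ∈ t, if R y x then w x else 0 := by
    intro x hx
    obtain ⟨y, hy, hR⟩ := h x hx
    have := Finset.single_le_sum (f := fun y => if R y x then w x else 0)
      (fun z _ => by split_ifs; exacts [hw x, le_rfl]) hy
    simpa [hR] using this
  refine (Finset.sum_le_sum h1).trans ?_
  rw [Finset.sum_comm]
  refine Finset.sum_le_sum fun y _ => ?_
  rw [Finset.sum_filter]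
  refine Finset.sum_le_sum_of_subset_of_nonneg (Finset.subset_univ _) fun x _ _ => ?_
  split_ifs
  exacts [hw x, le_rfl]

/-- The noisy weight of `S`. -/
theorem hat_Tn_sq (hp0 : 0 < p) (hp1 : p < 1) (f : (HyperedgeSlot n r → Bool) → Bool)
    (S : Finset (HyperedgeSlot n r)) :
    hat p (Tn p δ (ind f)) S ^ 2 = (1 - δ) ^ (2 * S.card) * mass p f S := by
  rw [hat_Tn hp0 hp1, mul_pow, mass, ← pow_mul, mul_comm S.card 2]

/-- One slot `e` with `e ∩ A = {a}`. -/
theorem key_slot (hp0 : 0 < p) (hp1 : p < 1) (hδ0 : 0 < δ) (hδ1 : δ ≤ 1)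
    (f : (HyperedgeSlot n r → Bool) → Bool) (hf : IsSymmetric f) (s : ℕ)
    (A : Finset (Fin n)) (a : Fin n) (ha : a ∈ A) (e : HyperedgeSlot n r)
    (he : e.1 ∩ A = {a}) :
    ∑ S ∈ (univ : Finset (Finset (HyperedgeSlot n r))).filter
        (fun S => e ∈ S ∧ degS S a ≤ s ∧ Disjoint (verts S) (A.erase a)),
        hat p (Tn p δ (ind f)) S ^ 2
      ≤ p * (1 - p) * (Real.sqrt (4 / (p * (1 - p))) ^ s
        * (1 / Real.sqrt (p * (1 - p) * A.card * δ)) * infl p f e) := by
  have hq : 0 < p * (1 - p) := mul_pos hp0 (by linarith)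
  have hm : 0 < (A.card : ℝ) := by exact_mod_cast Finset.card_pos.mpr ⟨a, ha⟩
  set g := Tn p δ (ind f) with hg
  set A' := A.erase a with hA'
  set v : (HyperedgeSlot n r → Bool) → ℝ := Dx e (EJ p (touch r A') g) with hv
  have heA' : e ∉ touch r A' := by
    simp only [touch, mem_filter, mem_univ, true_and, not_not]
    rw [Finset.disjoint_left]
    intro i hi hiA
    rw [hA', mem_erase] at hiA
    have : i ∈ e.1 ∩ A := mem_inter.mpr ⟨hi, hiA.2⟩
    rw [he, mem_singleton] at this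
    exact hiA.1 this
  have hv2 : v = fun x => EJ p (touch r A') (Dx e g) x := by
    funext x; exact Dx_EJ _ _ heA' _ _
  set c : ℝ := 1 / Real.sqrt (p * (1 - p) * A.card * δ) with hc
  have hc0 : 0 ≤ c := by positivity
  have hc2 : c ^ 2 = 1 / (p * (1 - p) * A.card * δ) := by
    rw [hc, div_pow, one_pow, Real.sq_sqrt (by positivity)]
  have htouch : touch r {a} ∪ touch r A' = touch r A := by
    rw [touch_union]
    congr 1
    rw [hA', ← Finset.insert_eq, Finset.insert_erase ha]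
  have hbound : ∀ x, EJ p (touch r {a}) (fun y => v y ^ 2) x ≤ c ^ 2 := by
    intro x
    have h1 : ∀ y, v y ^ 2 ≤ EJ p (touch r A') (fun z => Dx e g z ^ 2) y := by
      intro y
      rw [hv2]
      exact EJ_sq_le hp0.le hp1.le _ _ _
    have h2 := EJ_mono hp0.le hp1.le (touch r {a}) h1 x
    have h3 : EJ p (touch r {a}) (fun y => EJ p (touch r A') (fun z => Dx e g z ^ 2) y) x
        = EJ p (touch r A) (fun z => Dx e g z ^ 2) x := by
      rw [← htouch]
      exact EJ_EJ _ _ _ _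
    rw [h3] at h2
    refine h2.trans ?_
    have h4 := sym_grad hp0 hp1 hδ0 hδ1 f hf A a e he x
    rw [hc2, le_div_iff₀ (by positivity)]
    rw [le_div_iff₀ (by positivity)] at h4
    calc EJ p (touch r A) (fun z => Dx e g z ^ 2) x * (p * (1 - p) * A.card * δ)
        = (A.card : ℝ) * EJ p (touch r A) (fun z => Dx e g z ^ 2) x * (δ * (p * (1 - p))) := by ring
      _ ≤ 1 := h4
  have hcl := cond_level hp0 hp1 (touch r {a}) v s c hc0 hbound
  have hL1 : Ex p (fun x => |v x|) ≤ infl p f e := by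
    rw [hv2]
    exact (Ex_abs_EJ_le hp0.le hp1.le _ _).trans (Ex_abs_Dx_Tn_le hp0 hp1 hδ0.le hδ1 f e)
  -- rewrite the left side
  have hterm : ∀ S ∈ (univ : Finset (Finset (HyperedgeSlot n r))).filter
        (fun S => e ∈ S ∧ degS S a ≤ s ∧ Disjoint (verts S) A'),
        hat p g S ^ 2 = p * (1 - p) * hat p v (S.erase e) ^ 2 := by
    intro S hS
    rw [mem_filter] at hS
    obtain ⟨-, heS, -, hdis⟩ := hS
    have h1 : hat p (EJ p (touch r A') g) S = hat p g S := by
      rw [hat_EJ hp0 hp1, if_pos ((disjoint_touch_iff S A').mpr hdis)]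
    rw [← h1, hat_eq_sqrt_mul_hat_Dx hp0 hp1 _ e S heS, mul_pow, Real.sq_sqrt hq.le]
  rw [Finset.sum_congr rfl hterm, ← Finset.mul_sum]
  refine mul_le_mul_of_nonneg_left ?_ hq.le
  have hinj : ∑ S ∈ (univ : Finset (Finset (HyperedgeSlot n r))).filter
        (fun S => e ∈ S ∧ degS S a ≤ s ∧ Disjoint (verts S) A'), hat p v (S.erase e) ^ 2
      ≤ ∑ S ∈ (univ : Finset (Finset (HyperedgeSlot n r))).filter
        (fun S => (S ∩ touch r {a}).card ≤ s), hat p v S ^ 2 := by
    rw [← Finset.sum_image (f := fun S : Finset (HyperedgeSlot n r) => hat p v S ^ 2)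
      (g := fun S : Finset (HyperedgeSlot n r) => S.erase e)]
    · refine Finset.sum_le_sum_of_subset_of_nonneg ?_ fun S _ _ => sq_nonneg _
      intro S hS
      rw [mem_image] at hS
      obtain ⟨S', hS', rfl⟩ := hS
      rw [mem_filter] at hS' ⊢
      refine ⟨mem_univ _, ?_⟩
      refine le_trans (Finset.card_le_card ?_) ((inter_touch_singleton S' a).le.trans hS'.2.2.1)
      exact Finset.inter_subset_inter_right (Finset.erase_subset _ _)
    · intro S1 hS1 S2 hS2 heq
      simp only [Finset.coe_filter, Set.mem_ofPred_eq, mem_univ, true_and] at hS1 hS2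
      have : insert e (S1.erase e) = insert e (S2.erase e) := by
        simp only at heq; rw [heq]
      rwa [Finset.insert_erase hS1.1, Finset.insert_erase hS2.1] at this
  refine hinj.trans (hcl.trans ?_)
  exact mul_le_mul_of_nonneg_left hL1 (by positivity)

/-- One vertex `a`, the sets avoiding `A \ {a}`. -/
theorem key_vertex (hp0 : 0 < p) (hp1 : p < 1) (hδ0 : 0 < δ) (hδ1 : δ ≤ 1)
    (f : (HyperedgeSlot n r → Bool) → Bool) (hf : IsSymmetric f) (s : ℕ)
    (A : Finset (Fin n)) (a : Fin n) (ha : a ∈ A) :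
    ∑ S ∈ (univ : Finset (Finset (HyperedgeSlot n r))).filter
        (fun S => 1 ≤ degS S a ∧ degS S a ≤ s ∧ Disjoint (verts S) (A.erase a)),
        hat p (Tn p δ (ind f)) S ^ 2
      ≤ p * (1 - p) * (Real.sqrt (4 / (p * (1 - p))) ^ s
        * (1 / Real.sqrt (p * (1 - p) * A.card * δ))
          * ∑ e ∈ (univ : Finset (HyperedgeSlot n r)).filter (fun e => a ∈ e.1), infl p f e) := by
  have hq : 0 < p * (1 - p) := mul_pos hp0 (by linarith)
  rw [Finset.mul_sum, Finset.mul_sum]
  -- cover by the slots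
  have hcover : ∑ S ∈ (univ : Finset (Finset (HyperedgeSlot n r))).filter
        (fun S => 1 ≤ degS S a ∧ degS S a ≤ s ∧ Disjoint (verts S) (A.erase a)),
        hat p (Tn p δ (ind f)) S ^ 2
      ≤ ∑ e ∈ ((univ : Finset (HyperedgeSlot n r)).filter (fun e => a ∈ e.1)).filter
          (fun e => Disjoint e.1 (A.erase a)),
        ∑ S ∈ (univ : Finset (Finset (HyperedgeSlot n r))).filter
          (fun S => e ∈ S ∧ degS S a ≤ s ∧ Disjoint (verts S) (A.erase a)),
          hat p (Tn p δ (ind f)) S ^ 2 := by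
    refine sum_le_sum_cover _ _ (fun e S => e ∈ S ∧ degS S a ≤ s ∧
      Disjoint (verts S) (A.erase a)) _ (fun _ => sq_nonneg _) ?_
    intro S hS
    rw [mem_filter] at hS
    obtain ⟨-, h1, h2, h3⟩ := hS
    have h1' := (degS_pos_iff S a).mp h1
    unfold verts at h1'
    rw [mem_biUnion] at h1'
    obtain ⟨e, heS, hae⟩ := h1'
    refine ⟨e, ?_, heS, h2, h3⟩
    rw [mem_filter, mem_filter]
    refine ⟨⟨mem_univ _, hae⟩, ?_⟩
    unfold verts at h3
    rw [Finset.disjoint_biUnion_left] at h3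
    exact h3 e heS
  refine hcover.trans ?_
  have h1 : ∀ e ∈ ((univ : Finset (HyperedgeSlot n r)).filter (fun e => a ∈ e.1)).filter
          (fun e => Disjoint e.1 (A.erase a)),
        ∑ S ∈ (univ : Finset (Finset (HyperedgeSlot n r))).filter
          (fun S => e ∈ S ∧ degS S a ≤ s ∧ Disjoint (verts S) (A.erase a)),
          hat p (Tn p δ (ind f)) S ^ 2
        ≤ p * (1 - p) * (Real.sqrt (4 / (p * (1 - p))) ^ s
        * (1 / Real.sqrt (p * (1 - p) * A.card * δ)) * infl p f e) := by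
    intro e he
    rw [mem_filter, mem_filter] at he
    refine key_slot hp0 hp1 hδ0 hδ1 f hf s A a ha e ?_
    ext i
    rw [mem_inter, mem_singleton]
    constructor
    · rintro ⟨hi, hiA⟩
      by_contra hne
      exact (Finset.disjoint_left.mp he.2) hi (mem_erase.mpr ⟨hne, hiA⟩)
    · rintro rfl
      exact ⟨he.1.2, ha⟩
  refine (Finset.sum_le_sum h1).trans ?_
  refine Finset.sum_le_sum_of_subset_of_nonneg (Finset.filter_subset _ _) fun e _ _ => ?_
  have := infl_nonneg hp0.le hp1.le f e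
  positivity

theorem sum_sum_infl (f : (HyperedgeSlot n r → Bool) → Bool) :
    ∑ a : Fin n, ∑ e ∈ (univ : Finset (HyperedgeSlot n r)).filter (fun e => a ∈ e.1),
      infl p f e = r * totInf p f := by
  simp_rw [Finset.sum_filter]
  rw [Finset.sum_comm]
  unfold totInf
  rw [Finset.mul_sum]
  refine Finset.sum_congr rfl fun e _ => ?_
  rw [← Finset.sum_filter, Finset.sum_const, nsmul_eq_mul]
  congr 1
  have : (univ.filter (fun a => a ∈ e.1)) = e.1 := by ext; simp
  rw [this, e.2]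

theorem arith_aux (m n : ℕ) (hm : 1 ≤ m) (hmn : m ≤ n) (Q : ℝ) (hQ0 : 0 ≤ Q) :
    (n : ℝ) * (((m - 1 : ℕ) : ℝ) * (Q / ((n : ℝ) * (n - 1)))) ≤ m / n * Q := by
  have hn1 : 1 ≤ n := hm.trans hmn
  have hm1' : (1 : ℝ) ≤ m := by exact_mod_cast hm
  have hmn' : (m : ℝ) ≤ n := by exact_mod_cast hmn
  rcases Nat.eq_or_lt_of_le hn1 with h | h
  · have : m = 1 := by omega
    subst this
    simp only [Nat.sub_self, Nat.cast_zero, zero_mul, mul_zero]
    positivity
  · rw [Nat.cast_sub hm, Nat.cast_one]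
    have hn2 : (1 : ℝ) < n := by exact_mod_cast h
    have hn3 : (0 : ℝ) < n - 1 := by linarith
    have : (n : ℝ) * (((m : ℝ) - 1) * (Q / ((n : ℝ) * (n - 1)))) = ((m : ℝ) - 1) / (n - 1) * Q := by
      field_simp
    rw [this]
    refine mul_le_mul_of_nonneg_right ?_ hQ0
    rw [div_le_div_iff₀ hn3 (by linarith)]
    nlinarith

/-- (5): the bound on `Λ`. -/
theorem Lam_le (hp0 : 0 < p) (hp1 : p < 1) (hδ0 : 0 < δ) (hδ1 : δ ≤ 1)
    (f : (HyperedgeSlot n r → Bool) → Bool) (hf : IsSymmetric f) (m s : ℕ)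
    (hm : 1 ≤ m) (hmn : m ≤ n) :
    Lam p δ f s ≤ r * (p * (1 - p) * totInf p f) * Real.sqrt (4 / (p * (1 - p))) ^ s
        / Real.sqrt (p * (1 - p) * m * δ)
      + m / n * r ^ 2 * (p * (1 - p) * totInf p f) / (4 * δ) := by
  have hq : 0 < p * (1 - p) := mul_pos hp0 (by linarith)
  set w : Finset (HyperedgeSlot n r) → ℝ := fun S => (1 - δ) ^ (2 * S.card) * mass p f S with hw
  have hw0 : ∀ S, 0 ≤ w S := fun S => by
    have := mass_nonneg (p := p) f S
    have h1 : 0 ≤ (1 - δ) := by linarith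
    positivity
  set Q : ℝ := ∑ S : Finset (HyperedgeSlot n r),
        ((verts S).card : ℝ) * ((verts S).card - 1) * w S with hQ
  have hpair : ∀ a a' : Fin n, a ≠ a' →
      (n : ℝ) * (n - 1) * (∑ S ∈ (univ : Finset (Finset (HyperedgeSlot n r))).filter
        (fun S => a ∈ verts S ∧ a' ∈ verts S), w S) = Q :=
    fun a a' haa => pair_mass f hf (fun k => (1 - δ) ^ (2 * k)) a a' haa
  -- one vertex
  have hvert : ∀ a : Fin n, ∑ S ∈ (univ : Finset (Finset (HyperedgeSlot n r))).filter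
      (fun S => 1 ≤ degS S a ∧ degS S a ≤ s), w S
      ≤ p * (1 - p) * (Real.sqrt (4 / (p * (1 - p))) ^ s
        * (1 / Real.sqrt (p * (1 - p) * m * δ))
          * ∑ e ∈ (univ : Finset (HyperedgeSlot n r)).filter (fun e => a ∈ e.1), infl p f e)
        + (m - 1 : ℕ) * (Q / ((n : ℝ) * (n - 1))) := by
    intro a
    obtain ⟨A, hAa, -, hAm⟩ := Finset.exists_subsuperset_card_eq
      (s := ({a} : Finset (Fin n))) (t := univ) (n := m) (Finset.subset_univ _)
      (by simpa using hm) (by simpa using hmn)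
    have ha : a ∈ A := hAa (mem_singleton_self a)
    have hsplit := Finset.sum_filter_add_sum_filter_not
      ((univ : Finset (Finset (HyperedgeSlot n r))).filter
        (fun S => 1 ≤ degS S a ∧ degS S a ≤ s))
      (fun S => Disjoint (verts S) (A.erase a)) w
    rw [← hsplit]
    refine add_le_add ?_ ?_
    · have h1 := key_vertex hp0 hp1 hδ0 hδ1 f hf s A a ha
      rw [hAm] at h1
      refine le_trans (le_of_eq ?_) h1
      rw [Finset.filter_filter]
      refine Finset.sum_congr ?_ fun S _ => (hat_Tn_sq hp0 hp1 f S).symm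
      ext S; simp only [mem_filter, and_assoc]
    · have h2 : ∑ S ∈ ((univ : Finset (Finset (HyperedgeSlot n r))).filter
          (fun S => 1 ≤ degS S a ∧ degS S a ≤ s)).filter
            (fun S => ¬ Disjoint (verts S) (A.erase a)), w S
          ≤ ∑ a' ∈ A.erase a, ∑ S ∈ (univ : Finset (Finset (HyperedgeSlot n r))).filter
            (fun S => a ∈ verts S ∧ a' ∈ verts S), w S := by
        refine sum_le_sum_cover _ _ (fun a' S => a ∈ verts S ∧ a' ∈ verts S) _ hw0 ?_
        intro S hS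
        rw [mem_filter, mem_filter] at hS
        obtain ⟨⟨-, h1, -⟩, h3⟩ := hS
        rw [Finset.not_disjoint_iff] at h3
        obtain ⟨i, hi, hiA⟩ := h3
        exact ⟨i, hiA, (degS_pos_iff S a).mp h1, hi⟩
      refine h2.trans ?_
      have h3 : ∀ a' ∈ A.erase a, ∑ S ∈ (univ : Finset (Finset (HyperedgeSlot n r))).filter
            (fun S => a ∈ verts S ∧ a' ∈ verts S), w S ≤ Q / ((n : ℝ) * (n - 1)) := by
        intro a' ha'
        have hne : a ≠ a' := fun h => by
          rw [← h] at ha'; exact (Finset.notMem_erase a A) ha'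
        have hn2 : 2 ≤ n := by
          have : 1 < Fintype.card (Fin n) := Fintype.one_lt_card_iff.mpr ⟨a, a', hne⟩
          rw [Fintype.card_fin] at this
          omega
        have hn2' : (2 : ℝ) ≤ n := by exact_mod_cast hn2
        have hpos : 0 < (n : ℝ) * (n - 1) := by
          apply mul_pos <;> linarith
        rw [le_div_iff₀ hpos, ← hpair a a' hne]
        exact le_of_eq (mul_comm _ _)
      refine (Finset.sum_le_card_nsmul _ _ _ h3).trans ?_
      rw [Finset.card_erase_of_mem ha, hAm, nsmul_eq_mul]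
  have hLam : Lam p δ f s = ∑ a : Fin n, ∑ S ∈ (univ : Finset (Finset (HyperedgeSlot n r))).filter
      (fun S => 1 ≤ degS S a ∧ degS S a ≤ s), w S := rfl
  rw [hLam]
  refine (Finset.sum_le_sum fun a _ => hvert a).trans ?_
  rw [Finset.sum_add_distrib, ← Finset.mul_sum, ← Finset.mul_sum, sum_sum_infl,
    Finset.sum_const, Finset.card_univ, Fintype.card_fin, nsmul_eq_mul]
  refine add_le_add (le_of_eq (by ring)) ?_
  have hQ0 : 0 ≤ Q := by
    refine Finset.sum_nonneg fun S _ => mul_nonneg ?_ (hw0 S)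
    rcases Nat.eq_zero_or_pos (verts S).card with h | h
    · rw [h]; simp
    · have : (1 : ℝ) ≤ (verts S).card := by exact_mod_cast h
      apply mul_nonneg <;> linarith
  have hQle : Q ≤ r ^ 2 * (p * (1 - p) * totInf p f) / (4 * δ) := by
    have h1 : ∀ S : Finset (HyperedgeSlot n r),
        ((verts S).card : ℝ) * ((verts S).card - 1) * w S
          ≤ r ^ 2 / (4 * δ) * ((S.card : ℝ) * mass p f S) := by
      intro S
      have hv : ((verts S).card : ℝ) ≤ r * S.card := by exact_mod_cast card_verts_le S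
      have hv0 : (0 : ℝ) ≤ (verts S).card := Nat.cast_nonneg _
      have h2 : ((verts S).card : ℝ) * ((verts S).card - 1) ≤ (r * S.card) * (r * S.card) := by
        calc ((verts S).card : ℝ) * ((verts S).card - 1)
            ≤ (verts S).card * (verts S).card := by nlinarith
          _ ≤ _ := mul_le_mul hv hv hv0 (by positivity)
      have h3 := card_mul_pow_le hδ0 hδ1 S.card
      have hm0 := mass_nonneg (p := p) f S
      calc ((verts S).card : ℝ) * ((verts S).card - 1) * w S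
          ≤ (r * S.card) * (r * S.card) * w S := mul_le_mul_of_nonneg_right h2 (hw0 S)
        _ = r ^ 2 * ((S.card : ℝ) * mass p f S) * ((S.card : ℝ) * (1 - δ) ^ (2 * S.card)) := by
            rw [hw]; ring
        _ ≤ r ^ 2 * ((S.card : ℝ) * mass p f S) * (1 / (4 * δ)) :=
            mul_le_mul_of_nonneg_left h3 (by positivity)
        _ = r ^ 2 / (4 * δ) * ((S.card : ℝ) * mass p f S) := by ring
    refine (Finset.sum_le_sum fun S _ => h1 S).trans ?_
    rw [← Finset.mul_sum, ← mul_totInf_eq hp0 hp1 f]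
    exact le_of_eq (by ring)
  -- final arithmetic
  refine (arith_aux m n hm hmn Q hQ0).trans ?_
  have h5 : (0 : ℝ) ≤ m / n := by positivity
  calc (m : ℝ) / n * Q ≤ m / n * (r ^ 2 * (p * (1 - p) * totInf p f) / (4 * δ)) :=
        mul_le_mul_of_nonneg_left hQle h5
    _ = m / n * r ^ 2 * (p * (1 - p) * totInf p f) / (4 * δ) := by ring

/-- (6): the lower bound on the influence. -/
theorem lower_bound (hp0 : 0 < p) (hp1 : p < 1) (hδ0 : 0 ≤ δ) (hδ1 : δ ≤ 1) (hr : 2 ≤ r)
    (f : (HyperedgeSlot n r → Bool) → Bool) (s : ℕ) :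
    ((s : ℝ) + 1) ^ ((r : ℝ) / ((r : ℝ) - 1)) / r *
        (vari p f - 2 * δ * (p * (1 - p) * totInf p f) - Lam p δ f s)
      ≤ p * (1 - p) * totInf p f := by
  have hr0 : (0 : ℝ) < r := by exact_mod_cast (by omega : 0 < r)
  set w : Finset (HyperedgeSlot n r) → ℝ := fun S => (1 - δ) ^ (2 * S.card) * mass p f S with hw
  have h1δ : (0 : ℝ) ≤ 1 - δ := by linarith
  have hw0 : ∀ S, 0 ≤ w S := fun S => by
    have := mass_nonneg (p := p) f S
    positivity
  have hwle : ∀ S, w S ≤ mass p f S := fun S => by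
    have h0 := mass_nonneg (p := p) f S
    have h1 : (1 - δ) ^ (2 * S.card) ≤ 1 := pow_le_one₀ h1δ (by linarith)
    calc w S = (1 - δ) ^ (2 * S.card) * mass p f S := rfl
      _ ≤ 1 * mass p f S := mul_le_mul_of_nonneg_right h1 h0
      _ = mass p f S := one_mul _
  set E : ℝ := ((s : ℝ) + 1) ^ ((r : ℝ) / ((r : ℝ) - 1)) / r with hE
  have hE0 : 0 ≤ E := by positivity
  set G : Finset (Finset (HyperedgeSlot n r)) := univ.filter
    (fun S => S ≠ ∅ ∧ ∀ a ∈ verts S, s + 1 ≤ degS S a) with hG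
  -- lower bound for the total noisy weight
  have hA : vari p f - 2 * δ * (p * (1 - p) * totInf p f)
      ≤ ∑ S ∈ (univ : Finset (Finset (HyperedgeSlot n r))).filter (fun S => S ≠ ∅), w S := by
    have h1 : ∀ S : Finset (HyperedgeSlot n r),
        mass p f S - 2 * δ * ((S.card : ℝ) * mass p f S) ≤ w S := by
      intro S
      have hb := one_add_mul_le_pow (a := -δ) (by linarith) (2 * S.card)
      have hm0 := mass_nonneg (p := p) f S
      have e1 : (1 + -δ) ^ (2 * S.card) = (1 - δ) ^ (2 * S.card) := by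
        congr 1
      rw [e1] at hb
      push_cast at hb
      calc mass p f S - 2 * δ * ((S.card : ℝ) * mass p f S)
          = (1 + 2 * (S.card : ℝ) * -δ) * mass p f S := by ring
        _ ≤ (1 - δ) ^ (2 * S.card) * mass p f S := mul_le_mul_of_nonneg_right hb hm0
    have h2 : ∑ S ∈ (univ : Finset (Finset (HyperedgeSlot n r))).filter (fun S => S ≠ ∅),
        (mass p f S - 2 * δ * ((S.card : ℝ) * mass p f S))
        = vari p f - 2 * δ * (p * (1 - p) * totInf p f) := by
      rw [Finset.sum_sub_distrib, ← Finset.mul_sum, mul_totInf_eq hp0 hp1 f]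
      congr 2
      rw [Finset.sum_filter]
      refine Finset.sum_congr rfl fun S _ => ?_
      split_ifs with hS
      · rfl
      · rw [not_not] at hS
        rw [hS]; simp
    rw [← h2]
    exact Finset.sum_le_sum fun S _ => h1 S
  -- split off the bad sets
  have hB : ∑ S ∈ (univ : Finset (Finset (HyperedgeSlot n r))).filter (fun S => S ≠ ∅), w S
      ≤ ∑ S ∈ G, w S + Lam p δ f s := by
    rw [← Finset.sum_filter_add_sum_filter_not _ (fun S => ∀ a ∈ verts S, s + 1 ≤ degS S a) w]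
    refine add_le_add (le_of_eq ?_) ?_
    · rw [hG, Finset.filter_filter]
    · refine sum_le_sum_cover _ _ (fun a S => 1 ≤ degS S a ∧ degS S a ≤ s) _ hw0 ?_
      intro S hS
      rw [mem_filter] at hS
      obtain ⟨-, hS2⟩ := hS
      push Not at hS2
      obtain ⟨a, ha, hlt⟩ := hS2
      exact ⟨a, mem_univ _, (degS_pos_iff S a).mpr ha, by omega⟩
  -- good sets are large
  have hC : E * ∑ S ∈ G, w S ≤ p * (1 - p) * totInf p f := by
    rw [mul_totInf_eq hp0 hp1 f, Finset.mul_sum]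
    have h1 : ∀ S ∈ G, E * w S ≤ (S.card : ℝ) * mass p f S := by
      intro S hS
      rw [hG, mem_filter] at hS
      obtain ⟨-, hne, hdeg⟩ := hS
      have h2 := comb_degree_rpow hr S (Finset.nonempty_iff_ne_empty.mpr hne) s hdeg
      have h3 : E ≤ S.card := by
        rw [hE, div_le_iff₀ hr0, mul_comm]
        exact h2
      exact mul_le_mul h3 (hwle S) (hw0 S) (Nat.cast_nonneg _)
    refine (Finset.sum_le_sum h1).trans ?_
    refine Finset.sum_le_univ_sum_of_nonneg fun S => ?_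
    have := mass_nonneg (p := p) f S
    positivity
  have hD : vari p f - 2 * δ * (p * (1 - p) * totInf p f) - Lam p δ f s ≤ ∑ S ∈ G, w S := by
    linarith
  exact (mul_le_mul_of_nonneg_left hD hE0).trans hC

/-- Main inequality, all `n ≥ r ≥ 2`, all `p`. -/
theorem influence_main (hr : 2 ≤ r) (hrn : r ≤ n) (hp0 : 0 < p) (hp1 : p < 1)
    (f : (HyperedgeSlot n r → Bool) → Bool) (hf : IsSymmetric f) :
    Real.log n ^ ((r : ℝ) / ((r : ℝ) - 1)) * vari p f ≤ 2 ^ 16 * r * totInf p f := by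
  by_contra hcon
  push Not at hcon
  have hq : 0 < p * (1 - p) := mul_pos hp0 (by linarith)
  have hq4 : p * (1 - p) ≤ 1 / 4 := by nlinarith [sq_nonneg (p - 1 / 2)]
  have hr0 : (0 : ℝ) < r := by exact_mod_cast (by omega : 0 < r)
  have hI0 : 0 ≤ totInf p f := Finset.sum_nonneg fun e _ => infl_nonneg hp0.le hp1.le f e
  have hW0 : 0 ≤ vari p f := vari_nonneg f
  have hW : 0 < vari p f := by
    rcases hW0.eq_or_lt with h | h
    · rw [← h, mul_zero] at hcon
      have : 0 ≤ 2 ^ 16 * (r : ℝ) * totInf p f := by positivity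
      linarith
    · exact h
  set W := vari p f with hWdef
  set lam := p * (1 - p) with hlam
  set K : ℝ := lam * totInf p f / W with hK
  have hKW : K * W = lam * totInf p f := by rw [hK]; field_simp
  have hK1 : 1 ≤ K := by
    rw [hK, le_div_iff₀ hW, one_mul]
    exact vari_le hp0 hp1 f
  have hKlt : K * (2 ^ 16 * r) < lam * Real.log n ^ ((r : ℝ) / ((r : ℝ) - 1)) := by
    rw [hK, div_mul_eq_mul_div, div_lt_iff₀ hW]
    calc lam * totInf p f * (2 ^ 16 * r) = lam * (2 ^ 16 * r * totInf p f) := by ring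
      _ < lam * (Real.log n ^ ((r : ℝ) / ((r : ℝ) - 1)) * W) :=
        mul_lt_mul_of_pos_left hcon hq
      _ = _ := by ring
  obtain ⟨hN1, hN2⟩ := numerics r n hr hrn lam K hq hq4 hK1 hKlt
  set s := ⌊Real.log n * Real.sqrt lam / 2 ^ 7⌋₊ with hs
  have hn1 : 1 ≤ n := by omega
  have hm1 : 1 ≤ Nat.sqrt n := Nat.sqrt_pos.mpr hn1
  have hmn : Nat.sqrt n ≤ n := Nat.sqrt_le_self n
  have hK0 : 0 < K := by linarith
  have hδ0 : (0 : ℝ) < 1 / (4 * K) := by positivity
  have hδ1 : 1 / (4 * K) ≤ 1 := by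
    rw [div_le_one (by positivity)]; linarith
  have hL := Lam_le hp0 hp1 hδ0 hδ1 f hf (Nat.sqrt n) s hm1 hmn
  have hlow := lower_bound hp0 hp1 hδ0.le hδ1 hr f s
  rw [← hlam, ← hKW] at hL hlow
  have hL2 : Lam p (1 / (4 * K)) f s ≤ W / 4 := by
    refine hL.trans ?_
    have e1 : lam * (Nat.sqrt n : ℝ) * (1 / (4 * K)) = lam * (Nat.sqrt n : ℝ) / (4 * K) := by ring
    have e2 : (4 : ℝ) * (1 / (4 * K)) = 1 / K := by field_simp
    rw [e1, e2]
    calc (r : ℝ) * (K * W) * Real.sqrt (4 / lam) ^ s / Real.sqrt (lam * (Nat.sqrt n : ℝ) / (4 * K))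
          + (Nat.sqrt n : ℝ) / n * r ^ 2 * (K * W) / (1 / K)
        = W * ((r : ℝ) * K * Real.sqrt (4 / lam) ^ s
            / Real.sqrt (lam * (Nat.sqrt n : ℝ) / (4 * K))
          + (Nat.sqrt n : ℝ) / n * r ^ 2 * K ^ 2) := by
          rw [div_div_eq_mul_div, div_one]; ring
      _ ≤ W * (1 / 4) := mul_le_mul_of_nonneg_left hN1 hW0
      _ = W / 4 := by ring
  set E : ℝ := ((s : ℝ) + 1) ^ ((r : ℝ) / ((r : ℝ) - 1)) with hE
  have hE0 : 0 ≤ E := by positivity
  have e3 : 2 * (1 / (4 * K)) * (K * W) = W / 2 := by field_simp; ring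
  rw [e3] at hlow
  have h5 : E / r * (W / 4) ≤ K * W := by
    refine le_trans (mul_le_mul_of_nonneg_left ?_ (by positivity)) hlow
    linarith
  have h6 : E ≤ 4 * r * K := by
    have h7 : E / r * (W / 4) = E * (W / (4 * r)) := by ring
    rw [h7] at h5
    have h8 : K * W = (4 * r * K) * (W / (4 * r)) := by field_simp
    rw [h8] at h5
    exact le_of_mul_le_mul_right h5 (by positivity)
  linarith

/-- The Prelude form: `Var ≤ 2^16 r / (log n)^(r/(r-1)) * I`. -/
theorem influence_prelude (hr : 2 ≤ r) (hrn : r ≤ n) (hp0 : 0 < p) (hp1 : p < 1)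
    (f : (HyperedgeSlot n r → Bool) → Bool) (hf : IsSymmetric f) :
    probTrue p f * (1 - probTrue p f)
      ≤ (2 ^ 16 * r) / Real.log n ^ ((r : ℝ) / ((r : ℝ) - 1)) * totalInfluence p f := by
  have h := influence_main hr hrn hp0 hp1 f hf
  rw [vari_eq hp0 hp1, ← probTrue_eq, ← totalInfluence_eq] at h
  have hn : (1 : ℝ) < n := by exact_mod_cast (by omega : 1 < n)
  have hL : 0 < Real.log n ^ ((r : ℝ) / ((r : ℝ) - 1)) :=
    Real.rpow_pos_of_pos (Real.log_pos hn) _
  rw [div_mul_eq_mul_div, le_div_iff₀ hL, mul_comm]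
  exact h

end Crest.Agent.R056
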